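import Mathlib
import Vale.Agent.P002.Defs
import Vale.Agent.P002.Basic

/-!
Representations with full matrix span: Burnside's theorem, blocks of a semisimple representation,
tensor products.

An irreducible representation has full span (minimal rank argument). A semisimple representation
is conjugate to a block sum of such representations, and conversely. A full representation of a
product of two groups is conjugate to a tensor product of full representations of the factors.
-/

open Matrix Kronecker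

namespace Vale.Agent.P002.Prod

/-- The values span all matrices. -/
def Full {G ι : Type} (A : G → Matrix ι ι ℂ) : Prop := Submodule.span ℂ (Set.range A) = ⊤

lemma sl_inv {r : ℕ} (P : SpecialLinearGroup (Fin r) ℂ) :
    (P⁻¹).1 * P.1 = 1 ∧ P.1 * (P⁻¹).1 = 1 :=
  ⟨congrArg Subtype.val (inv_mul_cancel P), congrArg Subtype.val (mul_inv_cancel P)⟩

lemma full_iff {G ι : Type} {A : G → Matrix ι ι ℂ} :
    Full A ↔ ∀ M, M ∈ Submodule.span ℂ (Set.range A) :=
  Submodule.eq_top_iff'

theorem full_kron {G H : Type} {p q r : ℕ} {A : G → Matrix (Fin p) (Fin p) ℂ}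
    {B : H → Matrix (Fin q) (Fin q) ℂ} (hA : Full A) (hB : Full B)
    (e : Fin p × Fin q ≃ Fin r) :
    Full fun x : G × H => Matrix.reindex e e (A x.1 ⊗ₖ B x.2) := by
  set T := Submodule.span ℂ (Set.range fun x : G × H => Matrix.reindex e e (A x.1 ⊗ₖ B x.2))
    with hT
  let f : Matrix (Fin p) (Fin p) ℂ →ₗ[ℂ] Matrix (Fin q) (Fin q) ℂ →ₗ[ℂ]
      Matrix (Fin r) (Fin r) ℂ :=
    LinearMap.mk₂ ℂ (fun M N => Matrix.reindex e e (M ⊗ₖ N))
      (fun M M' N => by ext; simp [add_mul]) (fun c M N => by ext; simp [mul_assoc])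
      (fun M N N' => by ext; simp [mul_add]) (fun c M N => by ext; simp [mul_left_comm])
  have hf : ∀ M N, f M N = Matrix.reindex e e (M ⊗ₖ N) := fun _ _ => rfl
  have h2 : ∀ M N, f M N ∈ T := by
    intro M N
    have : Submodule.map₂ f (Submodule.span ℂ (Set.range A)) (Submodule.span ℂ (Set.range B)) ≤ T := by
      rw [Submodule.map₂_span_span, Submodule.span_le]
      rintro _ ⟨_, ⟨x, rfl⟩, _, ⟨y, rfl⟩, rfl⟩
      exact Submodule.subset_span ⟨(x, y), rfl⟩
    exact this (Submodule.apply_mem_map₂ f (full_iff.1 hA M) (full_iff.1 hB N))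
  refine full_iff.2 fun M => ?_
  rw [matrix_eq_sum_single M]
  refine Submodule.sum_mem _ fun i _ => Submodule.sum_mem _ fun j _ => ?_
  have := h2 (Matrix.single (e.symm i).1 (e.symm j).1 (M i j))
    (Matrix.single (e.symm i).2 (e.symm j).2 1)
  rw [hf, Matrix.single_kronecker_single, mul_one, Matrix.reindex_apply, hT] at this
  simpa using this

theorem full_conj {G : Type} {r : ℕ} {A : G → Matrix (Fin r) (Fin r) ℂ} (hA : Full A)
    (P : SpecialLinearGroup (Fin r) ℂ) : Full fun x => P.1 * A x * (P⁻¹).1 := by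
  refine full_iff.2 fun M => ?_
  let f : Matrix (Fin r) (Fin r) ℂ →ₗ[ℂ] Matrix (Fin r) (Fin r) ℂ :=
    (LinearMap.mulRight ℂ (P⁻¹).1) ∘ₗ (LinearMap.mulLeft ℂ P.1)
  have h1 := (sl_inv P).2
  have : M = f ((P⁻¹).1 * M * P.1) := by
    show M = P.1 * ((P⁻¹).1 * M * P.1) * (P⁻¹).1
    rw [← Matrix.mul_assoc, ← Matrix.mul_assoc, h1, Matrix.one_mul, Matrix.mul_assoc, h1,
      Matrix.mul_one]
  rw [this]
  have h2 := Submodule.mem_map_of_mem (f := f) (full_iff.1 hA ((P⁻¹).1 * M * P.1))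
  rw [Submodule.map_span, ← Set.range_comp] at h2
  exact h2

/-- A stable subspace of a full representation is trivial. -/
lemma Full.stable {G ι : Type} [Fintype ι] [DecidableEq ι] {A : G → Matrix ι ι ℂ} (hA : Full A)
    {U : Submodule ℂ (ι → ℂ)} (hU : ∀ x, ∀ v ∈ U, A x *ᵥ v ∈ U) : U = ⊥ ∨ U = ⊤ := by
  by_cases h : U = ⊥
  · exact Or.inl h
  obtain ⟨v, hv, hv0⟩ := Submodule.exists_mem_ne_zero_of_ne_bot h
  have hall : ∀ M : Matrix ι ι ℂ, M *ᵥ v ∈ U := by
    intro M
    induction full_iff.1 hA M using Submodule.span_induction with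
    | mem _ hx => obtain ⟨x, rfl⟩ := hx; exact hU x v hv
    | zero => simp
    | add _ _ _ _ h1 h2 => rw [add_mulVec]; exact U.add_mem h1 h2
    | smul c _ _ h1 => rw [smul_mulVec]; exact U.smul_mem c h1
  obtain ⟨k, hk⟩ := Function.ne_iff.1 hv0
  refine Or.inr (Submodule.eq_top_iff'.2 fun w => ?_)
  have : w = Matrix.vecMulVec w (Pi.single k (v k)⁻¹) *ᵥ v := by
    funext i
    simp [Matrix.vecMulVec, Matrix.mulVec, dotProduct, Pi.single_apply, mul_assoc,
      inv_mul_cancel₀ hk]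
  rw [this]
  exact hall _

/-- Burnside: an irreducible representation has full span. -/
theorem full_of_irr {G : Type} [Monoid G] {d : ℕ} (A : G →* Matrix (Fin d) (Fin d) ℂ)
    (hirr : ∀ U : Submodule ℂ (Fin d → ℂ), (∀ x, ∀ v ∈ U, A x *ᵥ v ∈ U) → U = ⊥ ∨ U = ⊤) :
    Full A := by
  rcases Nat.eq_zero_or_pos d with rfl | hd
  · exact full_iff.2 fun M => (Subsingleton.elim 0 M) ▸ Submodule.zero_mem _
  set S := Submodule.span ℂ (Set.range A) with hS
  have hone : (1 : Matrix (Fin d) (Fin d) ℂ) ∈ S := Submodule.subset_span ⟨1, map_one A⟩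
  have hmul : ∀ M ∈ S, ∀ N ∈ S, M * N ∈ S := by
    intro M hM N hN
    have h : S * S ≤ S := by
      rw [hS, Submodule.span_mul_span, Submodule.span_le]
      rintro _ ⟨_, ⟨x, rfl⟩, _, ⟨y, rfl⟩, rfl⟩
      exact Submodule.subset_span ⟨x * y, map_mul A x y⟩
    exact h (Submodule.mul_mem_mul hM hN)
  have htrans : ∀ v : Fin d → ℂ, v ≠ 0 → ∀ w, ∃ M ∈ S, M *ᵥ v = w := by
    intro v hv w
    let U : Submodule ℂ (Fin d → ℂ) := S.map ((Matrix.mulVecBilin ℂ ℂ).flip v)
    have hU : ∀ x, ∀ u ∈ U, A x *ᵥ u ∈ U := by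
      rintro x _ ⟨M, hM, rfl⟩
      exact ⟨A x * M, hmul _ (Submodule.subset_span ⟨x, rfl⟩) M hM, by simp [mulVec_mulVec]⟩
    rcases hirr U hU with h | h
    · refine absurd ((Submodule.mem_bot ℂ).1 (h ▸ ⟨1, hone, ?_⟩ : v ∈ (⊥ : Submodule ℂ _))) hv
      exact one_mulVec v
    · obtain ⟨M, hM, hMw⟩ := (h ▸ Submodule.mem_top : w ∈ U)
      exact ⟨M, hM, hMw⟩
  obtain ⟨T, ⟨hTS, hT0⟩, hmin⟩ := WellFounded.has_min
    (InvImage.wf (fun M : Matrix (Fin d) (Fin d) ℂ => M.rank) Nat.lt_wfRel.wf)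
    {M | M ∈ S ∧ M ≠ 0} ⟨1, hone, fun h => by
      have := congrFun (congrFun h ⟨0, hd⟩) ⟨0, hd⟩
      simp at this⟩
  obtain ⟨x, hx⟩ : ∃ x, T *ᵥ x ≠ 0 := by
    by_contra h
    push Not at h
    refine hT0 (Matrix.ext fun i j => ?_)
    simpa [Matrix.mulVec_single] using congrFun (h (Pi.single j 1)) i
  have hline : ∀ y, ∃ c : ℂ, T *ᵥ y = c • (T *ᵥ x) := by
    intro y
    by_contra hy
    push Not at hy
    obtain ⟨B, hB, hBy⟩ := htrans _ hx y
    set R := LinearMap.range T.mulVecLin with hR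
    have hmaps : ∀ v ∈ R, (T * B).mulVecLin v ∈ R := fun v _ =>
      ⟨B *ᵥ v, by simp [Matrix.mulVec_mulVec]⟩
    have : Nontrivial R := Submodule.nontrivial_iff_ne_bot.2 fun h =>
      hx ((Submodule.mem_bot ℂ).1 (h ▸ ⟨x, rfl⟩))
    obtain ⟨l, hl⟩ := Module.End.exists_eigenvalue ((T * B).mulVecLin.restrict hmaps)
    obtain ⟨w, hw⟩ := hl.exists_hasEigenvector
    set T' := (T * B - l • 1) * T with hT'
    have hT'S : T' ∈ S :=
      hmul _ (S.sub_mem (hmul _ hTS _ hB) (S.smul_mem l hone)) _ hTS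
    have hT'0 : T' ≠ 0 := by
      intro h
      apply hy l
      have := congrArg (fun M => M *ᵥ x) h
      simp only [hT', ← mulVec_mulVec, sub_mulVec, smul_mulVec, one_mulVec, hBy, zero_mulVec,
        sub_eq_zero] at this
      exact this
    refine hmin T' ⟨hT'S, hT'0⟩ ?_
    show T'.rank < T.rank
    rw [Matrix.rank, Matrix.rank, hT', Matrix.mulVecLin_mul, LinearMap.range_comp,
      ← LinearMap.range_domRestrict]
    set f := (T * B - l • 1).mulVecLin.domRestrict R
    have hker : f w = 0 := by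
      have h1 : (T * B) *ᵥ (w : Fin d → ℂ) = l • (w : Fin d → ℂ) :=
        congrArg Subtype.val hw.apply_eq_smul
      show (T * B - l • 1) *ᵥ (w : Fin d → ℂ) = 0
      rw [sub_mulVec, h1, smul_mulVec, one_mulVec, sub_self]
    have hpos : 0 < Module.finrank ℂ (LinearMap.ker f) :=
      Submodule.one_le_finrank_iff.2 fun h => hw.2 ((Submodule.mem_bot ℂ).1 (h ▸ hker))
    have := LinearMap.finrank_range_add_finrank_ker f
    have hRd : Module.finrank ℂ R = Module.finrank ℂ (LinearMap.range T.mulVecLin) := rfl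
    omega
  choose φ hφ using hline
  have hφ0 : φ x ≠ 0 := fun h => hx (by rw [hφ x, h, zero_smul])
  let row : Fin d → ℂ := fun i => φ (Pi.single i 1)
  have hTrow : T = vecMulVec (T *ᵥ x) row := by
    ext i j
    have := congrFun (hφ (Pi.single j 1)) i
    simpa [Matrix.mulVec_single, vecMulVec, row, mul_comm] using this
  have hrow0 : row ≠ 0 := fun h => hT0 (by rw [hTrow, h]; ext i j; simp [vecMulVec])
  -- all row vectors are reached on the right
  let Rw : Submodule ℂ (Fin d → ℂ) := S.map (Matrix.vecMulBilin ℂ ℂ row)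
  have hRw : Rw = ⊤ := by
    let Z : Submodule ℂ (Fin d → ℂ) :=
      { carrier := {v | ∀ C ∈ S, row ⬝ᵥ (C *ᵥ v) = 0}
        add_mem' := fun {a b} ha hb C hC => by
          rw [mulVec_add, dotProduct_add, ha C hC, hb C hC, add_zero]
        zero_mem' := fun C _ => by simp
        smul_mem' := fun c a ha C hC => by
          rw [mulVec_smul, dotProduct_smul, ha C hC, smul_zero] }
    have hZ : Z = ⊥ := by
      refine (hirr Z fun g v hv C hC => ?_).resolve_right fun h => ?_
      · rw [mulVec_mulVec]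
        exact hv _ (hmul C hC _ (Submodule.subset_span ⟨g, rfl⟩))
      · obtain ⟨k, hk⟩ := Function.ne_iff.1 hrow0
        have := (h ▸ Submodule.mem_top : (Pi.single k 1 : Fin d → ℂ) ∈ Z) 1 hone
        rw [one_mulVec, dotProduct_single_one] at this
        exact hk this
    by_contra hne
    obtain ⟨f, hf0, hf⟩ := Submodule.exists_le_ker_of_lt_top Rw (lt_top_iff_ne_top.2 hne)
    let v : Fin d → ℂ := fun i => f (Pi.single i 1)
    have hfv : ∀ u, f u = u ⬝ᵥ v := by
      intro u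
      conv_lhs => rw [pi_eq_sum_univ' u]
      simp [v, dotProduct]
    have hv : v ∈ Z := by
      intro C hC
      rw [Matrix.dotProduct_mulVec]
      have := hf ⟨C, hC, rfl⟩
      rw [LinearMap.mem_ker, hfv] at this
      exact this
    rw [hZ, Submodule.mem_bot] at hv
    exact hf0 (LinearMap.ext fun u => by rw [hfv, hv]; simp)
  refine full_iff.2 fun M => ?_
  rw [matrix_eq_sum_single M]
  refine Submodule.sum_mem _ fun i _ => Submodule.sum_mem _ fun j _ => ?_
  obtain ⟨B, hB, hBi⟩ := htrans _ hx (Pi.single i (M i j))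
  obtain ⟨C, hC, hCj⟩ := (hRw ▸ Submodule.mem_top : (Pi.single j 1 : Fin d → ℂ) ∈ Rw)
  have : Matrix.single i j (M i j) = B * T * C := by
    rw [hTrow, Matrix.mul_vecMulVec, Matrix.vecMulVec_mul, hBi]
    have hCj' : row ᵥ* C = Pi.single j 1 := hCj
    rw [hCj', Matrix.vecMulVec]
    ext a b
    by_cases ha : a = i <;> by_cases hb : b = j <;>
      simp [Matrix.single, Pi.single_apply, ha, hb, Ne.symm]
  rw [this]
  exact hmul _ (hmul _ hB _ hTS) _ hC

/-- The values of a representation in the special linear group, as matrices. -/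
def mat {G : Type} [Group G] {r : ℕ} (ρ : G →* SpecialLinearGroup (Fin r) ℂ) :
    G →* Matrix (Fin r) (Fin r) ℂ where
  toFun x := (ρ x).1
  map_one' := by simp
  map_mul' x y := by simp

/-- A simple subspace carries a representation with full span. -/
lemma exists_model {G : Type} [Monoid G] {r : ℕ} (σ : G →* Matrix (Fin r) (Fin r) ℂ)
    {V : Submodule ℂ (Fin r → ℂ)} (hV : Simple (Set.range σ) V) :
    ∃ (d : ℕ) (f : (Fin d → ℂ) →ₗ[ℂ] (Fin r → ℂ)) (A : G →* Matrix (Fin d) (Fin d) ℂ),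
      0 < d ∧ Full A ∧ LinearMap.ker f = ⊥ ∧ LinearMap.range f = V ∧
        ∀ x w, σ x *ᵥ f w = f (A x *ᵥ w) := by
  obtain ⟨hst, hne, hmin⟩ := hV
  let d := Module.finrank ℂ V
  let f : (Fin d → ℂ) →ₗ[ℂ] (Fin r → ℂ) :=
    V.subtype ∘ₗ (Module.finBasis ℂ V).equivFun.symm.toLinearMap
  have hker : LinearMap.ker f = ⊥ :=
    LinearMap.ker_eq_bot.2 (V.injective_subtype.comp (LinearEquiv.injective _))
  have hinj := LinearMap.ker_eq_bot.1 hker
  have hrange : LinearMap.range f = V := by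
    rw [LinearMap.range_comp, LinearEquiv.range, Submodule.map_top, Submodule.range_subtype]
  obtain ⟨κ, hκ⟩ := f.exists_leftInverse_of_injective hker
  have hback : ∀ v ∈ V, f (κ v) = v := by
    intro v hv
    obtain ⟨w, rfl⟩ := hrange ▸ hv
    rw [← LinearMap.comp_apply κ f, hκ, LinearMap.id_apply]
  let A₀ : G → Matrix (Fin d) (Fin d) ℂ := fun x =>
    LinearMap.toMatrix' (κ ∘ₗ (σ x).mulVecLin ∘ₗ f)
  have hA₀ : ∀ x w, σ x *ᵥ f w = f (A₀ x *ᵥ w) := by
    intro x w
    have hw : f w ∈ V := hrange ▸ LinearMap.mem_range_self f w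
    show σ x *ᵥ f w = f (LinearMap.toMatrix' _ *ᵥ w)
    rw [LinearMap.toMatrix'_mulVec]
    exact (hback _ (hst _ ⟨x, rfl⟩ _ hw)).symm
  let A : G →* Matrix (Fin d) (Fin d) ℂ :=
    { toFun := A₀
      map_one' := Matrix.ext_of_mulVec_single fun i => hinj (by
        rw [← hA₀, map_one, one_mulVec, one_mulVec])
      map_mul' := fun x y => Matrix.ext_of_mulVec_single fun i => hinj (by
        rw [← hA₀, map_mul, ← mulVec_mulVec, hA₀, hA₀, mulVec_mulVec]) }
  refine ⟨d, f, A, Submodule.one_le_finrank_iff.2 hne, ?_, hker, hrange, hA₀⟩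
  refine full_of_irr A fun U hU => ?_
  by_cases h : U = ⊥
  · exact Or.inl h
  refine Or.inr ?_
  have hUV : U.map f = V := by
    refine hmin _ ?_ (hrange ▸ LinearMap.map_le_range) ?_
    · rintro _ ⟨x, rfl⟩ _ ⟨w, hw, rfl⟩
      exact ⟨A x *ᵥ w, hU x w hw, (hA₀ x w).symm⟩
    · intro h0
      exact h (Submodule.map_injective_of_injective hinj (h0.trans (Submodule.map_bot f).symm))
  refine Submodule.map_injective_of_injective hinj ?_
  rw [hUV, Submodule.map_top, hrange]

/-- Scaling turns an invertible matrix into one of determinant one with the same conjugation. -/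
lemma exists_sl {r : ℕ} (P0 : Matrix (Fin r) (Fin r) ℂ) (h : IsUnit P0.det) :
    ∃ P : SpecialLinearGroup (Fin r) ℂ, ∀ M X : Matrix (Fin r) (Fin r) ℂ,
      M * P0 = P0 * X → M = P.1 * X * (P⁻¹).1 := by
  rcases Nat.eq_zero_or_pos r with rfl | hr
  · exact ⟨1, fun M X _ => Subsingleton.elim _ _⟩
  obtain ⟨c, hc⟩ := IsAlgClosed.exists_pow_nat_eq (P0.det)⁻¹ hr
  have hdet : (c • P0).det = 1 := by
    rw [Matrix.det_smul, Fintype.card_fin, hc, inv_mul_cancel₀ h.ne_zero]
  refine ⟨⟨c • P0, hdet⟩, fun M X hMX => ?_⟩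
  set P : SpecialLinearGroup (Fin r) ℂ := ⟨c • P0, hdet⟩
  have h1 := (sl_inv P).2
  have h2 : M * P.1 = P.1 * X := by
    show M * (c • P0) = (c • P0) * X
    rw [Matrix.mul_smul, Matrix.smul_mul, hMX]
  rw [← h2, Matrix.mul_assoc, h1, Matrix.mul_one]

/-- A square frame gives a conjugation. -/
lemma exists_frame {G I : Type} [Fintype I] [DecidableEq I] {r : ℕ}
    (σ : G → Matrix (Fin r) (Fin r) ℂ) (X : G → Matrix I I ℂ) (P0 : Matrix (Fin r) I ℂ)
    (hinj : Function.Injective P0.mulVec) (hsurj : Function.Surjective P0.mulVec)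
    (h : ∀ x, σ x * P0 = P0 * X x) :
    ∃ (e : I ≃ Fin r) (P : SpecialLinearGroup (Fin r) ℂ),
      ∀ x, σ x = P.1 * Matrix.reindex e e (X x) * (P⁻¹).1 := by
  let L : (I → ℂ) ≃ₗ[ℂ] (Fin r → ℂ) := LinearEquiv.ofBijective P0.mulVecLin ⟨hinj, hsurj⟩
  have hcard : Fintype.card I = r := by simpa using L.finrank_eq
  let e := Fintype.equivFinOfCardEq hcard
  have hu : IsUnit (P0.submatrix id e.symm).det := by
    rw [← Matrix.isUnit_iff_isUnit_det, ← Matrix.mulVec_injective_iff_isUnit]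
    intro a b hab
    have hab' : P0 *ᵥ (a ∘ e) = P0 *ᵥ (b ∘ e) := by
      simpa [Matrix.submatrix_mulVec_equiv] using hab
    exact funext fun i => by simpa using congrFun (hinj hab') (e.symm i)
  obtain ⟨P, hP⟩ := exists_sl _ hu
  refine ⟨e, P, fun x => hP _ _ ?_⟩
  have h1 := congrArg (fun M => M.submatrix id e.symm) (h x)
  simp only [Matrix.submatrix_mul _ _ id id e.symm Function.bijective_id, Matrix.submatrix_id_id]
    at h1
  rw [h1, Matrix.reindex_apply, Matrix.submatrix_mul_equiv,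
    Matrix.submatrix_mul P0 (X x) id id e.symm Function.bijective_id, Matrix.submatrix_id_id]

theorem exists_blocks {G : Type} [Group G] {r : ℕ} (ρ : G →* SpecialLinearGroup (Fin r) ℂ)
    (hρ : Semisimple ρ) :
    ∃ (a : ℕ) (d : Fin a → ℕ) (e : (Σ i, Fin (d i)) ≃ Fin r)
      (A : ∀ i, G →* Matrix (Fin (d i)) (Fin (d i)) ℂ) (P : SpecialLinearGroup (Fin r) ℂ),
      (∀ i, 0 < d i ∧ Full (A i)) ∧
        ∀ x, (ρ x).1 =
          P.1 * Matrix.reindex e e (Matrix.blockDiagonal' fun i => A i x) * (P⁻¹).1 := by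
  set σ := mat ρ
  have hCR : CR (Set.range σ) := by
    intro U hU
    obtain ⟨W, hW, hc⟩ := hρ U fun g => hU _ ⟨g, rfl⟩
    exact ⟨W, fun m hm => by obtain ⟨g, rfl⟩ := hm; exact hW g, hc⟩
  suffices key : ∀ n : ℕ, ∃ (a : ℕ) (d : Fin a → ℕ)
      (f : ∀ i, (Fin (d i) → ℂ) →ₗ[ℂ] (Fin r → ℂ))
      (A : ∀ i, G →* Matrix (Fin (d i)) (Fin (d i)) ℂ),
      (∀ i, 0 < d i ∧ Full (A i)) ∧ (∀ i x w, σ x *ᵥ f i w = f i (A i x *ᵥ w)) ∧
      (∀ c : ∀ i, Fin (d i) → ℂ, ∑ i, f i (c i) = 0 → c = 0) ∧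
      (n ≤ ∑ i, d i ∨ ∀ v, ∃ c : ∀ i, Fin (d i) → ℂ, ∑ i, f i (c i) = v) by
    obtain ⟨a, d, f, A, hA, heq, hinj, hsp⟩ := key (r + 1)
    let P0 : Matrix (Fin r) (Σ i, Fin (d i)) ℂ :=
      Matrix.of fun k s => f s.1 (Pi.single s.2 1) k
    have hmul : ∀ c, P0 *ᵥ c = ∑ i, f i (fun j => c ⟨i, j⟩) := by
      intro c
      funext k
      rw [Finset.sum_apply]
      simp only [Matrix.mulVec, dotProduct, P0, Matrix.of_apply, Fintype.sum_sigma]
      refine Finset.sum_congr rfl fun i _ => ?_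
      conv_rhs => rw [pi_eq_sum_univ' (fun j => c ⟨i, j⟩)]
      simp only [map_sum, map_smul, Finset.sum_apply, Pi.smul_apply, smul_eq_mul]
      exact Finset.sum_congr rfl fun j _ => mul_comm _ _
    have hPinj : Function.Injective P0.mulVec := by
      intro u v huv
      have := hinj (fun i j => (u - v) ⟨i, j⟩) (by rw [← hmul, mulVec_sub, huv, sub_self])
      funext s
      exact sub_eq_zero.1 (congrFun (congrFun this s.1) s.2)
    have hsp' : ∀ v, ∃ c : ∀ i, Fin (d i) → ℂ, ∑ i, f i (c i) = v := by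
      refine hsp.resolve_left fun h => ?_
      have := LinearMap.finrank_le_finrank_of_injective
        (f := P0.mulVecLin) hPinj
      simp at this
      omega
    have hPsurj : Function.Surjective P0.mulVec := fun v => by
      obtain ⟨c, hc⟩ := hsp' v
      exact ⟨fun s => c s.1 s.2, by rw [hmul]; exact hc⟩
    have hcol : ∀ x, σ x * P0 = P0 * Matrix.blockDiagonal' fun i => A i x := by
      intro x
      refine Matrix.ext_of_mulVec_single fun s => ?_
      rw [← mulVec_mulVec, ← mulVec_mulVec, hmul, hmul]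
      rw [mulVec_sum]
      refine Finset.sum_congr rfl fun i _ => ?_
      rw [heq i x]
      congr 1
      funext j
      simp only [Matrix.mulVec, dotProduct, Matrix.blockDiagonal'_apply, Fintype.sum_sigma]
      rw [Finset.sum_eq_single i (fun b _ hb => Finset.sum_eq_zero fun y _ => by
        simp [Ne.symm hb]) (by simp)]
      simp
    obtain ⟨e, P, hP⟩ := exists_frame σ _ P0 hPinj hPsurj hcol
    exact ⟨a, d, e, A, P, hA, hP⟩
  intro n
  induction n with
  | zero => exact ⟨0, Fin.elim0, fun i => i.elim0, fun i => i.elim0, fun i => i.elim0,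
      fun i => i.elim0, fun _ _ => funext fun i => i.elim0, Or.inl (Nat.zero_le _)⟩
  | succ n ih =>
    obtain ⟨a, d, f, A, hA, heq, hinj, hsp⟩ := ih
    by_cases hall : ∀ v, ∃ c : ∀ i, Fin (d i) → ℂ, ∑ i, f i (c i) = v
    · exact ⟨a, d, f, A, hA, heq, hinj, Or.inr hall⟩
    let U : Submodule ℂ (Fin r → ℂ) :=
      LinearMap.range (LinearMap.lsum ℂ (fun i => Fin (d i) → ℂ) ℂ f)
    have hUmem : ∀ v, v ∈ U ↔ ∃ c : ∀ i, Fin (d i) → ℂ, ∑ i, f i (c i) = v := by
      intro v
      simp [U, LinearMap.mem_range]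
    obtain ⟨V, hV, hVU⟩ : ∃ V, Simple (Set.range σ) V ∧ ¬ V ≤ U := by
      by_contra h
      push Not at h
      exact hall fun v => (hUmem v).1
        (sSup_le h (sSup_simple_eq_top hCR ▸ Submodule.mem_top))
    obtain ⟨d₀, f₀, A₀, hd₀, hA₀, hker₀, hr₀, heq₀⟩ := exists_model σ hV
    refine ⟨a + 1, Fin.cons d₀ d, Fin.cons f₀ f, Fin.cons A₀ A, ?_, ?_, ?_, ?_⟩
    · exact Fin.cases ⟨hd₀, hA₀⟩ hA
    · exact Fin.cases heq₀ heq
    · intro c hc
      rw [Fin.sum_univ_succ] at hc
      obtain ⟨w0, hw0⟩ : ∃ w : Fin d₀ → ℂ, w = c 0 := ⟨_, rfl⟩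
      obtain ⟨cs, hcs⟩ : ∃ cs : ∀ i, Fin (d i) → ℂ, cs = fun i : Fin a => c i.succ :=
        ⟨_, rfl⟩
      have hc' : f₀ w0 + ∑ i, f i (cs i) = 0 := by subst hw0 hcs; exact hc
      have hZ : ∀ x, ∀ w ∈ U.comap f₀, A₀ x *ᵥ w ∈ U.comap f₀ := by
        intro x w hw
        obtain ⟨c', hc''⟩ := (hUmem _).1 (Submodule.mem_comap.1 hw)
        refine Submodule.mem_comap.2 ((hUmem _).2 ⟨fun i => A i x *ᵥ c' i, ?_⟩)
        rw [← heq₀ x w, ← hc'', mulVec_sum]
        exact Finset.sum_congr rfl fun i _ => (heq i x _).symm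
      have hZ0 : U.comap f₀ = ⊥ := (hA₀.stable hZ).resolve_right fun h =>
        hVU (hr₀ ▸ LinearMap.range_le_iff_comap.2 h)
      have hwU : f₀ w0 ∈ U := (hUmem _).2 ⟨fun i => -cs i, by
        simp only [map_neg, Finset.sum_neg_distrib]
        exact (eq_neg_of_add_eq_zero_left hc').symm⟩
      have h0 : w0 = 0 := (Submodule.mem_bot ℂ).1 (hZ0 ▸ Submodule.mem_comap.2 hwU)
      rw [h0, map_zero, zero_add] at hc'
      have hcs0 := hinj cs hc'
      subst hw0 hcs
      funext i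
      refine Fin.cases ?_ ?_ i
      · exact h0
      · exact fun j => congrFun hcs0 j
    · refine Or.inl ?_
      rw [Fin.sum_univ_succ]
      simp only [Fin.cons_zero, Fin.cons_succ]
      have := hsp.resolve_right hall
      omega

theorem semisimple_of_blocks {G : Type} [Group G] {r a : ℕ} {d : Fin a → ℕ}
    (e : (Σ i, Fin (d i)) ≃ Fin r) (A : ∀ i, G → Matrix (Fin (d i)) (Fin (d i)) ℂ)
    (hA : ∀ i, Full (A i)) (P : SpecialLinearGroup (Fin r) ℂ)
    (ρ : G →* SpecialLinearGroup (Fin r) ℂ)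
    (h : ∀ x, (ρ x).1 =
      P.1 * Matrix.reindex e e (Matrix.blockDiagonal' fun i => A i x) * (P⁻¹).1) :
    Semisimple ρ := by
  set S := Set.range (mat ρ)
  set P0 : Matrix (Fin r) (Σ i, Fin (d i)) ℂ := P.1.submatrix id e
  have hiP := (sl_inv P).1
  have hcol : ∀ x, (ρ x).1 * P0 = P0 * Matrix.blockDiagonal' fun i => A i x := by
    intro x
    have h1 : (ρ x).1 * P.1 =
        P.1 * Matrix.reindex e e (Matrix.blockDiagonal' fun i => A i x) := by
      rw [h x, Matrix.mul_assoc, hiP, Matrix.mul_one]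
    have h2 := congrArg (fun M => M.submatrix id e) h1
    simp only [Matrix.submatrix_mul _ _ id id e Function.bijective_id, Matrix.submatrix_id_id]
      at h2
    have hB : (Matrix.blockDiagonal' fun i => A i x) =
        (Matrix.reindex e e (Matrix.blockDiagonal' fun i => A i x)).submatrix e e := by simp
    conv_rhs => rw [hB, Matrix.submatrix_mul_equiv]
    rw [h2, Matrix.submatrix_mul _ _ id id e Function.bijective_id, Matrix.submatrix_id_id]
  have hCR : CR S := by
    apply cr_of_sSup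
    rw [← top_le_iff]
    intro v _
    let j : ∀ i, (Fin (d i) → ℂ) →ₗ[ℂ] (Fin r → ℂ) := fun i =>
      P0.mulVecLin ∘ₗ LinearMap.pi fun s =>
        if hs : s.1 = i then LinearMap.proj (R := ℂ) (φ := fun _ => ℂ) (Fin.cast (congrArg d hs) s.2)
        else 0
    have hdec : v = ∑ i, j i (fun k => ((P⁻¹).1 *ᵥ v) (e ⟨i, k⟩)) := by
      simp only [j, LinearMap.comp_apply, Matrix.mulVecLin_apply]
      rw [← mulVec_sum]
      have : (∑ i, (LinearMap.pi fun s : (Σ i, Fin (d i)) =>
          if hs : s.1 = i then LinearMap.proj (R := ℂ) (φ := fun _ => ℂ) (Fin.cast (congrArg d hs) s.2)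
            else 0)
          (fun k => ((P⁻¹).1 *ᵥ v) (e ⟨i, k⟩))) = ((P⁻¹).1 *ᵥ v) ∘ e := by
        funext s
        obtain ⟨i0, k0⟩ := s
        rw [Finset.sum_apply, Finset.sum_eq_single i0]
        · simp
        · intro b _ hb
          simp [Ne.symm hb]
        · simp
      rw [this]
      show v = P.1.submatrix id e *ᵥ _
      rw [Matrix.submatrix_mulVec_equiv]
      simp only [Function.comp_assoc, Equiv.self_comp_symm, Function.comp_id, mulVec_mulVec]
      rw [(sl_inv P).2, one_mulVec]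
    have heq : ∀ i x w, (ρ x).1 *ᵥ j i w = j i (A i x *ᵥ w) := by
      intro i x w
      simp only [j, LinearMap.comp_apply, Matrix.mulVecLin_apply]
      rw [mulVec_mulVec, hcol x, ← mulVec_mulVec]
      congr 1
      funext s
      obtain ⟨i0, k0⟩ := s
      simp only [Matrix.mulVec, dotProduct, LinearMap.pi_apply, Fintype.sum_sigma,
        Matrix.blockDiagonal'_apply]
      by_cases hi : i0 = i
      · subst hi
        rw [Finset.sum_eq_single i0 (fun b _ hb => Finset.sum_eq_zero fun y _ => by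
          simp [Ne.symm hb]) (by simp)]
        simp [Matrix.mulVec, dotProduct]
      · rw [Finset.sum_eq_zero fun b _ => Finset.sum_eq_zero fun y _ => ?_]
        · simp [hi]
        · by_cases hb : b = i
          · subst hb; simp [hi]
          · simp [hb]
    rw [hdec]
    refine Submodule.sum_mem _ fun i _ => ?_
    by_cases hV : LinearMap.range (j i) = ⊥
    · have : j i (fun k => ((P⁻¹).1 *ᵥ v) (e ⟨i, k⟩)) = 0 :=
        (Submodule.mem_bot ℂ).1 (hV ▸ LinearMap.mem_range_self _ _)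
      rw [this]
      exact Submodule.zero_mem _
    refine le_sSup (show LinearMap.range (j i) ∈ {V | Simple S V} from ⟨?_, hV, ?_⟩)
      (LinearMap.mem_range_self _ _)
    · rintro _ ⟨x, rfl⟩ _ ⟨w, rfl⟩
      exact ⟨A i x *ᵥ w, (heq i x w).symm⟩
    · intro U hU hle hne
      rcases (hA i).stable (U := U.comap (j i)) (fun x w hw => by
        rw [Submodule.mem_comap, ← heq]; exact hU _ ⟨x, rfl⟩ _ hw) with h0 | h0
      · exact absurd (by rw [← Submodule.map_comap_eq_self hle, h0, Submodule.map_bot]) hne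
      · rw [← Submodule.map_comap_eq_self hle, h0, Submodule.map_top]
  intro U hU
  obtain ⟨W, hW, hc⟩ := hCR U fun m hm => by obtain ⟨g, rfl⟩ := hm; exact hU g
  exact ⟨W, fun g => hW _ ⟨g, rfl⟩, hc⟩

theorem exists_tensor {G H : Type} [Group G] [Group H] {r : ℕ} (hr : 0 < r)
    (ρ : G × H →* SpecialLinearGroup (Fin r) ℂ) (hρ : Full fun x => (ρ x).1) :
    ∃ (p q : ℕ) (e : Fin p × Fin q ≃ Fin r) (A : G →* Matrix (Fin p) (Fin p) ℂ)
      (B : H →* Matrix (Fin q) (Fin q) ℂ) (P : SpecialLinearGroup (Fin r) ℂ),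
      Full A ∧ Full B ∧
        ∀ x y, (ρ (x, y)).1 = P.1 * Matrix.reindex e e (A x ⊗ₖ B y) * (P⁻¹).1 := by
  let σ : G →* Matrix (Fin r) (Fin r) ℂ := (mat ρ).comp (MonoidHom.inl G H)
  let τ : H →* Matrix (Fin r) (Fin r) ℂ := (mat ρ).comp (MonoidHom.inr G H)
  have hστ : ∀ x y, σ x * τ y = (ρ (x, y)).1 ∧ τ y * σ x = (ρ (x, y)).1 := by
    intro x y
    constructor
    · exact congrArg Subtype.val ((map_mul ρ (x, 1) (1, y)).symm.trans (congrArg ρ (by simp)))
    · exact congrArg Subtype.val ((map_mul ρ (1, y) (x, 1)).symm.trans (congrArg ρ (by simp)))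
  have : Nonempty (Fin r) := ⟨⟨0, hr⟩⟩
  obtain ⟨V, -, hV⟩ := exists_simple_le (Set.range σ)
    (U := (⊤ : Submodule ℂ (Fin r → ℂ))) (fun _ _ _ _ => Submodule.mem_top)
    (bot_ne_top.symm)
  obtain ⟨p, f, A, hp, hA, hker, hrf, heq⟩ := exists_model σ hV
  have heq' : ∀ x h w, σ x *ᵥ (τ h *ᵥ f w) = τ h *ᵥ f (A x *ᵥ w) := by
    intro x h w
    rw [← heq, mulVec_mulVec, mulVec_mulVec, (hστ x h).1, (hστ x h).2]
  -- the translates of the subspace span everything
  have hgen : ∀ U : Submodule ℂ (Fin r → ℂ), (∀ h w, τ h *ᵥ f w ∈ U) → U = ⊤ := by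
    intro U hU
    let T : Submodule ℂ (Fin r → ℂ) := ⨆ h, (LinearMap.range f).map (τ h).mulVecLin
    have hTU : T ≤ U := iSup_le fun h => by
      rintro _ ⟨_, ⟨w, rfl⟩, rfl⟩
      exact hU h w
    have hst : ∀ z, ∀ v ∈ T, (ρ z).1 *ᵥ v ∈ T := by
      intro z
      have hle : T ≤ T.comap (ρ z).1.mulVecLin := iSup_le fun h => by
        rintro _ ⟨_, ⟨w, rfl⟩, rfl⟩
        refine Submodule.mem_iSup_of_mem (z.2 * h) ⟨f (A z.1 *ᵥ w), ⟨_, rfl⟩, ?_⟩
        simp only [Matrix.mulVecLin_apply]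
        rw [← (hστ z.1 z.2).2, ← mulVec_mulVec, heq', mulVec_mulVec, map_mul]
      exact fun v hv => hle hv
    rcases hρ.stable hst with h0 | h0
    · exfalso
      apply hV.2.1
      rw [← hrf, ← le_bot_iff, ← h0]
      rintro _ ⟨w, rfl⟩
      exact Submodule.mem_iSup_of_mem 1 ⟨f w, ⟨w, rfl⟩, by simp⟩
    · exact top_le_iff.1 (h0 ▸ hTU)
  suffices key : ∀ n : ℕ, ∃ (q : ℕ) (g : Fin q → H),
      (∀ c : Fin q → Fin p → ℂ, ∑ j, τ (g j) *ᵥ f (c j) = 0 → c = 0) ∧
      (n ≤ q ∨ ∀ v, ∃ c : Fin q → Fin p → ℂ, ∑ j, τ (g j) *ᵥ f (c j) = v) by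
    obtain ⟨q, g, hinj, hsp⟩ := key (r + 1)
    let P0 : Matrix (Fin r) (Fin p × Fin q) ℂ :=
      Matrix.of fun k s => (τ (g s.2) *ᵥ f (Pi.single s.1 1)) k
    have hmul : ∀ c, P0 *ᵥ c = ∑ j, τ (g j) *ᵥ f (fun i => c (i, j)) := by
      intro c
      funext k
      rw [Finset.sum_apply]
      simp only [P0, Matrix.mulVec, dotProduct, Matrix.of_apply]
      rw [Fintype.sum_prod_type, Finset.sum_comm]
      refine Finset.sum_congr rfl fun j _ => ?_
      conv_rhs =>
        enter [2, l]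
        rw [pi_eq_sum_univ' (fun i => c (i, j)), map_sum, Finset.sum_apply, Finset.mul_sum]
      simp only [map_smul, Pi.smul_apply, smul_eq_mul, Finset.sum_mul]
      rw [Finset.sum_comm]
      exact Finset.sum_congr rfl fun i _ => Finset.sum_congr rfl fun l _ => by ring
    have hPinj : Function.Injective P0.mulVec := by
      intro u v huv
      have := hinj (fun j i => (u - v) (i, j)) (by rw [← hmul, mulVec_sub, huv, sub_self])
      funext s
      exact sub_eq_zero.1 (congrFun (congrFun this s.2) s.1)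
    have hsp' : ∀ v, ∃ c : Fin q → Fin p → ℂ, ∑ j, τ (g j) *ᵥ f (c j) = v := by
      refine hsp.resolve_left fun h => ?_
      have := LinearMap.finrank_le_finrank_of_injective (f := P0.mulVecLin) hPinj
      simp at this
      nlinarith
    have hPsurj : Function.Surjective P0.mulVec := fun v => by
      obtain ⟨c, hc⟩ := hsp' v
      exact ⟨fun s => c s.2 s.1, by rw [hmul]; exact hc⟩
    have hA1 : ∀ x, σ x * P0 = P0 * (A x ⊗ₖ (1 : Matrix (Fin q) (Fin q) ℂ)) := by
      intro x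
      refine Matrix.ext_of_mulVec_single fun s => ?_
      rw [← mulVec_mulVec, ← mulVec_mulVec, hmul, hmul, mulVec_sum]
      refine Finset.sum_congr rfl fun j _ => ?_
      rw [heq']
      congr 2
      funext i
      simp only [Matrix.mulVec, dotProduct, Matrix.kroneckerMap_apply, Matrix.one_apply,
        Fintype.sum_prod_type]
      simp
    obtain ⟨e, P, hP⟩ := exists_frame σ _ P0 hPinj hPsurj hA1
    obtain ⟨hi1, hi2⟩ := sl_inv P
    let N : H → Matrix (Fin p × Fin q) (Fin p × Fin q) ℂ := fun y =>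
      Matrix.reindex e.symm e.symm ((P⁻¹).1 * τ y * P.1)
    have hNρ : ∀ y, τ y = P.1 * Matrix.reindex e e (N y) * (P⁻¹).1 := by
      intro y
      simp only [N, Matrix.reindex_apply, Equiv.symm_symm, Matrix.submatrix_submatrix,
        Equiv.self_comp_symm, Matrix.submatrix_id_id]
      rw [← Matrix.mul_assoc, ← Matrix.mul_assoc, hi2, Matrix.one_mul, Matrix.mul_assoc, hi2,
        Matrix.mul_one]
    -- conjugation is injective and multiplicative
    let Φ : Matrix (Fin p × Fin q) (Fin p × Fin q) ℂ → Matrix (Fin r) (Fin r) ℂ :=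
      fun M => P.1 * Matrix.reindex e e M * (P⁻¹).1
    have hΦmul : ∀ M M', Φ M * Φ M' = Φ (M * M') := by
      intro M M'
      simp only [Φ, Matrix.reindex_apply, ← Matrix.submatrix_mul_equiv _ _ _ e.symm _,
        Matrix.mul_assoc]
      rw [← Matrix.mul_assoc (P⁻¹).1 P.1, hi1, Matrix.one_mul]
    have hΦinj : Function.Injective Φ := by
      intro M M' hM
      have h1 := congrArg (fun Z => (P⁻¹).1 * Z * P.1) hM
      simp only [Φ, ← Matrix.mul_assoc, hi1, Matrix.one_mul] at h1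
      simp only [Matrix.mul_assoc, hi1, Matrix.mul_one] at h1
      exact (Matrix.reindex e e).injective h1
    have hcomm : ∀ y (M : Matrix (Fin p) (Fin p) ℂ),
        (M ⊗ₖ (1 : Matrix (Fin q) (Fin q) ℂ)) * N y = N y * (M ⊗ₖ 1) := by
      intro y M
      induction full_iff.1 hA M using Submodule.span_induction with
      | mem _ hM =>
        obtain ⟨x, rfl⟩ := hM
        refine hΦinj ?_
        rw [← hΦmul, ← hΦmul]
        show (P.1 * Matrix.reindex e e _ * (P⁻¹).1) * (P.1 * Matrix.reindex e e _ * (P⁻¹).1) =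
          (P.1 * Matrix.reindex e e _ * (P⁻¹).1) * (P.1 * Matrix.reindex e e _ * (P⁻¹).1)
        rw [← hP, ← hNρ, (hστ x y).1, (hστ x y).2]
      | zero => simp
      | add a b _ _ h1 h2 => rw [Matrix.add_kronecker, add_mul, mul_add, h1, h2]
      | smul c a _ h1 => rw [Matrix.smul_kronecker, smul_mul_assoc, mul_smul_comm, h1]
    let i0 : Fin p := ⟨0, hp⟩
    let B₀ : H → Matrix (Fin q) (Fin q) ℂ := fun y => (N y).submatrix (Prod.mk i0) (Prod.mk i0)
    have hNB : ∀ y, N y = (1 : Matrix (Fin p) (Fin p) ℂ) ⊗ₖ B₀ y := by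
      intro y
      ext ⟨i, j⟩ ⟨i', j'⟩
      have := congrFun (congrFun (hcomm y (Matrix.single i0 i 1)) (i0, j)) (i', j')
      simp [Matrix.mul_apply, Fintype.sum_prod_type, Matrix.single, Matrix.one_apply] at this
      simp only [Matrix.kroneckerMap_apply, Matrix.one_apply, B₀, Matrix.submatrix_apply]
      rw [this]
      by_cases hii : i = i'
      · subst hii; simp
      · simp [hii]
    have hker1 : ∀ M M' : Matrix (Fin q) (Fin q) ℂ,
        (1 : Matrix (Fin p) (Fin p) ℂ) ⊗ₖ M = 1 ⊗ₖ M' → M = M' := by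
      intro M M' hM
      ext j j'
      simpa using congrFun (congrFun hM (i0, j)) (i0, j')
    let B : H →* Matrix (Fin q) (Fin q) ℂ :=
      { toFun := B₀
        map_one' := hker1 _ _ (by
          rw [← hNB, Matrix.one_kronecker_one]
          show Matrix.reindex e.symm e.symm ((P⁻¹).1 * τ 1 * P.1) = 1
          rw [map_one, Matrix.mul_one, hi1]
          simp)
        map_mul' := fun y y' => hker1 _ _ (hΦinj (by
          have hB : ∀ y, Φ ((1 : Matrix (Fin p) (Fin p) ℂ) ⊗ₖ B₀ y) = τ y := fun y => by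
            rw [← hNB]; exact (hNρ y).symm
          rw [hB, map_mul, ← hB y, ← hB y', hΦmul, ← Matrix.mul_kronecker_mul, Matrix.one_mul])) }
    have hfinal : ∀ x y, (ρ (x, y)).1 = Φ (A x ⊗ₖ B y) := by
      intro x y
      have h2 : τ y = Φ ((1 : Matrix (Fin p) (Fin p) ℂ) ⊗ₖ B y) := by
        show τ y = Φ (1 ⊗ₖ B₀ y)
        rw [← hNB]; exact hNρ y
      rw [← (hστ x y).1, hP x, h2]
      show Φ (A x ⊗ₖ 1) * Φ _ = _
      rw [hΦmul, ← Matrix.mul_kronecker_mul, Matrix.mul_one, Matrix.one_mul]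
    refine ⟨p, q, e, A, B, P, hA, ?_, hfinal⟩
    refine full_iff.2 fun M => ?_
    -- read off the first diagonal block
    let R : Matrix (Fin r) (Fin r) ℂ →ₗ[ℂ] Matrix (Fin q) (Fin q) ℂ :=
      { toFun := fun Z => ((Matrix.reindex e.symm e.symm ((P⁻¹).1 * Z * P.1))).submatrix
          (Prod.mk i0) (Prod.mk i0)
        map_add' := fun Z Z' => by ext; simp [Matrix.mul_add, Matrix.add_mul]
        map_smul' := fun c Z => by ext; simp }
    have hRΦ : ∀ K, R (Φ K) = K.submatrix (Prod.mk i0) (Prod.mk i0) := by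
      intro K
      show (Matrix.reindex e.symm e.symm _).submatrix _ _ = _
      simp only [Φ, ← Matrix.mul_assoc, hi1, Matrix.one_mul]
      rw [Matrix.mul_assoc, hi1, Matrix.mul_one]
      simp [Matrix.submatrix_submatrix]
    have hM : M = R (Φ (Matrix.single i0 i0 1 ⊗ₖ M)) := by
      rw [hRΦ]; ext; simp
    rw [hM]
    have h1 := Submodule.mem_map_of_mem (f := R)
      (full_iff.1 hρ (Φ (Matrix.single i0 i0 1 ⊗ₖ M)))
    refine ?_
    have hle : (Submodule.span ℂ (Set.range fun z => (ρ z).1)).map R ≤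
        Submodule.span ℂ (Set.range B) := by
      rw [Submodule.map_span, Submodule.span_le]
      rintro _ ⟨_, ⟨z, rfl⟩, rfl⟩
      rw [SetLike.mem_coe, show (fun z => (ρ z).1) z = _ from hfinal z.1 z.2, hRΦ]
      have : (A z.1 ⊗ₖ B z.2).submatrix (Prod.mk i0) (Prod.mk i0) = A z.1 i0 i0 • B z.2 := by
        ext; simp
      rw [this]
      exact Submodule.smul_mem _ _ (Submodule.subset_span ⟨_, rfl⟩)
    exact hle h1
  intro n
  induction n with
  | zero => exact ⟨0, Fin.elim0, fun _ _ => funext fun i => i.elim0, Or.inl (Nat.zero_le _)⟩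
  | succ n ih =>
    obtain ⟨q, g, hinj, hsp⟩ := ih
    by_cases hall : ∀ v, ∃ c : Fin q → Fin p → ℂ, ∑ j, τ (g j) *ᵥ f (c j) = v
    · exact ⟨q, g, hinj, Or.inr hall⟩
    let U : Submodule ℂ (Fin r → ℂ) := LinearMap.range
      (LinearMap.lsum ℂ (fun _ : Fin q => Fin p → ℂ) ℂ fun j => (τ (g j)).mulVecLin ∘ₗ f)
    have hUmem : ∀ v, v ∈ U ↔ ∃ c : Fin q → Fin p → ℂ, ∑ j, τ (g j) *ᵥ f (c j) = v := by
      intro v
      simp [U, LinearMap.mem_range]
    obtain ⟨h, w, hw⟩ : ∃ h w, τ h *ᵥ f w ∉ U := by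
      by_contra hn
      push Not at hn
      exact hall fun v => (hUmem v).1 (hgen U hn ▸ Submodule.mem_top)
    refine ⟨q + 1, Fin.cons h g, ?_, Or.inl ?_⟩
    · intro c hc
      rw [Fin.sum_univ_succ] at hc
      simp only [Fin.cons_zero, Fin.cons_succ] at hc
      have hZ : ∀ x, ∀ v ∈ U.comap ((τ h).mulVecLin ∘ₗ f),
          A x *ᵥ v ∈ U.comap ((τ h).mulVecLin ∘ₗ f) := by
        intro x v hv
        obtain ⟨c', hc'⟩ := (hUmem _).1 (Submodule.mem_comap.1 hv)
        refine Submodule.mem_comap.2 ((hUmem _).2 ⟨fun j => A x *ᵥ c' j, ?_⟩)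
        simp only [LinearMap.comp_apply, Matrix.mulVecLin_apply] at hc' ⊢
        rw [← heq', ← hc', mulVec_sum]
        exact Finset.sum_congr rfl fun j _ => (heq' x _ _).symm
      have hZ0 : U.comap ((τ h).mulVecLin ∘ₗ f) = ⊥ := (hA.stable hZ).resolve_right fun h' =>
        hw (Submodule.mem_comap.1 (h' ▸ Submodule.mem_top :
          w ∈ U.comap ((τ h).mulVecLin ∘ₗ f)))
      have h0 : c 0 = 0 := by
        refine (Submodule.mem_bot ℂ).1 (hZ0 ▸ Submodule.mem_comap.2 ((hUmem _).2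
          ⟨fun i => -c i.succ, ?_⟩) : c 0 ∈ (⊥ : Submodule ℂ (Fin p → ℂ)))
        simp only [map_neg, mulVec_neg, Finset.sum_neg_distrib, LinearMap.comp_apply,
          Matrix.mulVecLin_apply]
        exact (eq_neg_of_add_eq_zero_left hc).symm
      have h0' : τ h *ᵥ f (c 0) = 0 := by rw [h0, map_zero, mulVec_zero]
      rw [h0', zero_add] at hc
      have := hinj (fun i => c i.succ) hc
      funext i
      refine Fin.cases ?_ ?_ i
      · exact h0
      · exact fun j => congrFun this j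
    · have := hsp.resolve_right hall
      omega

end Vale.Agent.P002.Prod
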