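import Vale.Agent.P002.Global.Dense
import Vale.Agent.P002.Prod.Full

/-!
Integral points among the representations with full span, for free groups and closed surface
groups; characters of these groups.
-/

open Matrix
open scoped commutatorElement

namespace Vale.Agent.P002.Prod

open Vale.Agent.P002.Surface Vale.Agent.P002.Global

variable {r : ℕ}

/-- The roots of unity used up to rank `r`. -/
def RR (r : ℕ) : Subring ℂ := rootRing (2 * r.factorial)

/-- Integral representations with full span detect polynomials on those with full span, in all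
ranks up to `r`. -/
def Ok (r : ℕ) (G : Type) [Group G] : Prop :=
  ∀ m, 0 < m → m ≤ r → ∀ F ∈ PolyFun G m,
    (∀ ρ : G →* SL m, Full (fun x => (ρ x).1) → (∀ x, ρ x ∈ intGroup (RR r) m) →
      F (fun x => ρ x) = 0) →
    ∀ ρ : G →* SL m, Full (fun x => (ρ x).1) → F (fun x => ρ x) = 0

/-- Characters are given by finitely many integral exponents and their values at dual elements. -/
def Chars (G : Type) [Group G] : Prop :=
  ∃ (N : ℕ) (e : G →* Multiplicative (Fin N → ℤ)) (x : Fin N → G),
    (∀ k, (e (x k)).toAdd = Pi.single k 1) ∧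
      ∀ (ψ : G →* ℂˣ) (g : G), ψ g = ∏ k, ψ (x k) ^ (e g).toAdd k

/-- A polynomial detecting full span. -/
lemma exists_detector {G : Type} {m : ℕ} (y₀ : G → SL m) (h : Full fun x => (y₀ x).1) :
    ∃ H ∈ PolyFun G m, H y₀ ≠ 0 ∧ ∀ y : G → SL m, H y ≠ 0 → Full fun x => (y x).1 := by
  classical
  let fl : Mat m ≃ₗ[ℂ] (Fin m × Fin m → ℂ) :=
    { toFun := fun M p => M p.1 p.2
      map_add' := fun _ _ => rfl
      map_smul' := fun _ _ => rfl
      invFun := fun v => Matrix.of fun i j => v (i, j)
      left_inv := fun _ => rfl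
      right_inv := fun _ => rfl }
  have hspan : Submodule.span ℂ (Set.range fun x => fl (y₀ x).1) = ⊤ := by
    rw [show (fun x => fl (y₀ x).1) = fl ∘ fun x => (y₀ x).1 from rfl, Set.range_comp,
      ← LinearEquiv.coe_coe, Submodule.span_image, show Submodule.span ℂ _ = ⊤ from h,
      Submodule.map_top, LinearEquiv.range]
  obtain ⟨b, hb, hspb, hli⟩ := exists_linearIndependent ℂ (Set.range fun x => fl (y₀ x).1)
  rw [hspan] at hspb
  have : Fintype b := @Fintype.ofFinite _ hli.finite
  let B := Module.Basis.mk hli (by rw [Subtype.range_coe, hspb])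
  let e : Fin m × Fin m ≃ b := Fintype.equivOfCardEq (by
    rw [← Module.finrank_eq_card_basis B]
    simp)
  choose w hw using fun t : b => hb t.2
  let row : (G → SL m) → Fin m × Fin m → Fin m × Fin m → ℂ := fun y t => fl (y (w (e t))).1
  refine ⟨fun y => (Matrix.of (row y)).det, det_mem' _ (fun t p y => row y t p)
    (fun t p => proj_mem (w (e t)) p.1 p.2), ?_, fun y hy => ?_⟩
  · have hrow : row y₀ = fun t => (e t : Fin m × Fin m → ℂ) := funext fun t => hw (e t)
    have hu := Matrix.linearIndependent_rows_iff_isUnit.1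
      (show LinearIndependent ℂ (Matrix.of (row y₀)).row by
        show LinearIndependent ℂ (row y₀)
        rw [hrow]
        exact hli.comp e e.injective)
    exact isUnit_iff_ne_zero.1 ((Matrix.isUnit_iff_isUnit_det _).1 hu)
  · have hlin : LinearIndependent ℂ (row y) := Matrix.linearIndependent_rows_iff_isUnit.2
      ((Matrix.isUnit_iff_isUnit_det _).2 (isUnit_iff_ne_zero.2 hy))
    have htop : (Submodule.span ℂ (Set.range fun x => (y x).1)).map fl.toLinearMap = ⊤ := by
      rw [eq_top_iff, ← hlin.span_eq_top_of_card_eq_finrank' (by simp), ← Submodule.span_image]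
      refine Submodule.span_mono ?_
      rintro _ ⟨t, rfl⟩
      exact ⟨_, ⟨w (e t), rfl⟩, rfl⟩
    exact Submodule.map_injective_of_injective (f := fl.toLinearMap) fl.injective
      (htop.trans (by rw [Submodule.map_top, LinearEquiv.range]))

/-- Polynomial functions of one variable. -/
def PT : Subalgebra ℂ (ℂ → ℂ) where
  carrier := {f | ∃ p : Polynomial ℂ, ∀ t, f t = p.eval t}
  mul_mem' := fun ⟨p, hp⟩ ⟨q, hq⟩ => ⟨p * q, fun t => by simp [hp t, hq t]⟩
  add_mem' := fun ⟨p, hp⟩ ⟨q, hq⟩ => ⟨p + q, fun t => by simp [hp t, hq t]⟩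
  algebraMap_mem' := fun c => ⟨Polynomial.C c, fun t => by simp⟩

/-- A polynomial on tuples vanishing on integral tuples vanishes. -/
theorem vanish_int {X : Type} [Fintype X] {m : ℕ} (O : Subring ℂ) {F : (X → SL m) → ℂ}
    (hF : F ∈ PolyFun X m) (h : ∀ y, IsInt O y → F y = 0) (y : X → SL m) : F y = 0 := by
  classical
  suffices H : ∀ S : Finset X, ∀ G ∈ PolyFun X m, (∀ y, IsInt O y → G y = 0) →
      ∀ y : X → SL m, (∀ x, x ∉ S → y x ∈ intGroup O m) → G y = 0 from
    H Finset.univ F hF h y fun x hx => absurd (Finset.mem_univ x) hx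
  intro S
  induction S using Finset.induction with
  | empty => exact fun G _ hG y hy => hG y fun x => hy x (by simp)
  | insert a S ha ih =>
    intro G hG hG0 y hy
    let Z : Set (SL m) :=
      {M | ∀ G ∈ PolyFun X m, (∀ y, IsInt O y → G y = 0) → G (Function.update y a M) = 0}
    have hone : (1 : SL m) ∈ Z := fun G hG hG0 => ih G hG hG0 _ fun x hx => by
      by_cases hxa : x = a
      · subst hxa; rw [Function.update_self]; exact one_mem _
      · rw [Function.update_of_ne hxa]; exact hy x (by simp [hxa, hx])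
    have hel : ∀ M ∈ Z, ∀ (i j : Fin m) (t : ℂ), i ≠ j → M * el i j t ∈ Z := by
      intro M hM i j t hij G hG hG0
      have hint : ∀ n : ℤ, G (Function.update y a (M * el i j (n : ℂ))) = 0 := fun n => by
        have hn : el i j (n : ℂ) ∈ intGroup O m := mem_intGroup.2 fun p q => by
          rw [el_val' hij, Matrix.transvection, Matrix.add_apply, Matrix.one_apply,
            Matrix.single, Matrix.of_apply]
          split_ifs <;> simp [O.add_mem, O.one_mem, intCast_mem, O.zero_mem]
        have h1 := hM (fun y' => G (Function.update y' a (y' a * el i j (n : ℂ)))) ?_ ?_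
        · simpa using h1
        · refine polyFun_comp _ (fun y' : X → SL m => Function.update y' a (y' a * el i j (n : ℂ)))
            (fun x => ?_) hG
          by_cases hxa : x = a
          · subst hxa
            simp only [Function.update_self]
            exact (entGroup _).mul_mem (proj_mem _) (const_mem _ _)
          · simp only [Function.update_of_ne hxa]
            exact proj_mem _
        · intro y' hy'
          refine hG0 _ fun x => ?_
          by_cases hxa : x = a
          · subst hxa; rw [Function.update_self]; exact mul_mem (hy' _) hn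
          · rw [Function.update_of_ne hxa]; exact hy' x
      obtain ⟨p, hp⟩ : (fun t => G (Function.update y a (M * el i j t))) ∈ PT := by
        refine polyFun_comp PT (fun t => Function.update y a (M * el i j t)) (fun x => ?_) hG
        by_cases hxa : x = a
        · subst hxa
          simp only [Function.update_self]
          exact (entGroup _).mul_mem (const_mem _ _) (el_mem _ _ _ ⟨Polynomial.X, fun t => by simp⟩)
        · simp only [Function.update_of_ne hxa]
          exact const_mem _ _
      have hp0 : p = 0 := Polynomial.eq_zero_of_infinite_isRoot p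
        ((Set.infinite_range_of_injective (Int.cast_injective (α := ℂ))).mono (by
          rintro _ ⟨n, rfl⟩
          exact (hp n).symm.trans (hint n)))
      have := hp t
      rwa [hp0, Polynomial.eval_zero] at this
    let T : Submonoid (SL m) :=
      { carrier := {N | ∀ M ∈ Z, M * N ∈ Z}
        one_mem' := fun M hM => by rwa [mul_one]
        mul_mem' := fun {A B} hA hB M hM => by rw [← mul_assoc]; exact hB _ (hA M hM) }
    have hT : T = ⊤ := el_generate T fun i j t hij M hM => hel M hM i j t hij
    have hz : y a ∈ Z := by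
      have := (hT ▸ Submonoid.mem_top (y a) : y a ∈ T) 1 hone
      rwa [one_mul] at this
    have := hz G hG hG0
    rwa [Function.update_eq_self] at this

theorem ok_free (r n : ℕ) : Ok r (FreeGroup (Fin n)) := by
  intro m hm0 hmr F hF hF0 ρ hρ
  obtain ⟨H, hH, hH0, hHf⟩ := exists_detector (fun x => ρ x) hρ
  let Φ : (Fin n → SL m) → FreeGroup (Fin n) → SL m := fun y x => FreeGroup.lift y x
  have hΦ : ∀ x, (fun y => Φ y x) ∈ entGroup (PolyFun (Fin n) m) := fun x =>
    lift_mem (entGroup (PolyFun (Fin n) m)) (fun i y => y i) proj_mem x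
  have key := vanish_int (RR r) (F := fun y => F (Φ y) * H (Φ y))
    (mul_mem (polyFun_comp _ Φ hΦ hF) (polyFun_comp _ Φ hΦ hH)) (fun y hy => by
      by_cases h : H (Φ y) = 0
      · rw [h, mul_zero]
      · rw [show F (Φ y) = 0 from hF0 (FreeGroup.lift y) (hHf _ h) (fun x =>
          FreeGroup.range_lift_le (by rintro _ ⟨i, rfl⟩; exact hy i) ⟨x, rfl⟩), zero_mul])
    fun i => ρ (FreeGroup.of i)
  have e : Φ (fun i => ρ (FreeGroup.of i)) = fun x => ρ x := funext fun x =>
    DFunLike.congr_fun (FreeGroup.ext_hom (FreeGroup.lift fun i => ρ (FreeGroup.of i)) ρ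
      fun i => by simp) x
  rw [e] at key
  exact (mul_eq_zero.1 key).resolve_right hH0

lemma chars_free (n : ℕ) : Chars (FreeGroup (Fin n)) := by
  let e : FreeGroup (Fin n) →* Multiplicative (Fin n → ℤ) :=
    FreeGroup.lift fun k => Multiplicative.ofAdd (Pi.single k 1)
  refine ⟨n, e, FreeGroup.of, fun k => by simp [e], fun ψ g => ?_⟩
  let χ : FreeGroup (Fin n) →* ℂˣ :=
    MonoidHom.mk' (fun g => ∏ k, ψ (FreeGroup.of k) ^ (e g).toAdd k) fun a b => by
      simp [_root_.zpow_add, Finset.prod_mul_distrib]
  refine DFunLike.congr_fun (FreeGroup.ext_hom ψ χ fun i => ?_) g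
  show _ = ∏ k, ψ (FreeGroup.of k) ^ (e (FreeGroup.of i)).toAdd k
  simp [e, Pi.single_apply]

/-- The relation of a closed surface. -/
def surfaceRel (g : ℕ) : FreeGroup (Gens g) :=
  (List.ofFn fun i : Fin g => ⁅FreeGroup.of (i, false), FreeGroup.of (i, true)⁆).prod

/-- The group of a closed surface. -/
abbrev SG (g : ℕ) : Type := PresentedGroup ({surfaceRel g} : Set (FreeGroup (Gens g)))

lemma chars_surface (g : ℕ) : Chars (SG g) := by
  let N := g * 2
  let ι : Gens g ≃ Fin N := Fintype.equivFinOfCardEq (by simp [N])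
  let f : Gens g → Multiplicative (Fin N → ℤ) := fun x => Multiplicative.ofAdd (Pi.single (ι x) 1)
  let e : SG g →* Multiplicative (Fin N → ℤ) := PresentedGroup.toGroup (f := f) (fun w hw => by
    rw [Set.mem_singleton_iff.1 hw, surfaceRel, map_list_prod, List.map_ofFn]
    refine List.prod_eq_one fun x hx => ?_
    obtain ⟨i, rfl⟩ := List.mem_ofFn.1 hx
    simp [map_commutatorElement, commutatorElement_def, mul_comm, mul_left_comm])
  have he : ∀ x, e (PresentedGroup.of x) = f x := fun x => PresentedGroup.toGroup.of _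
  refine ⟨N, e, fun k => PresentedGroup.of (ι.symm k), fun k => by simp [he, f], fun ψ u => ?_⟩
  let χ : SG g →* ℂˣ :=
    MonoidHom.mk' (fun u => ∏ k, ψ (PresentedGroup.of (ι.symm k)) ^ (e u).toAdd k) fun a b => by
      simp [_root_.zpow_add, Finset.prod_mul_distrib]
  refine DFunLike.congr_fun (PresentedGroup.ext (φ := ψ) (ψ := χ) fun x => ?_) u
  show _ = ∏ k, ψ (PresentedGroup.of (ι.symm k)) ^ (e (PresentedGroup.of x)).toAdd k
  simp [he, f, Pi.single_apply]

theorem ok_surface (r : ℕ) {g : ℕ} (hg : 3 ≤ g) : Ok r (SG g) := by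
  intro m hm0 hmr F hF hF0 ρ hρ
  obtain ⟨k, rfl⟩ : ∃ k, g = 3 + k := ⟨g - 3, by omega⟩
  rcases Nat.lt_or_ge m 2 with hm | hm
  · obtain rfl : m = 1 := by omega
    exact hF0 ρ hρ fun x => mem_intGroup.2 fun i j => by
      obtain rfl := Subsingleton.elim i j
      obtain rfl := Subsingleton.elim i 0
      have := (ρ x).2
      rw [Matrix.det_fin_one] at this
      rw [this]; exact one_mem _
  obtain ⟨H, hH, hH0, hHf⟩ := exists_detector (fun x => ρ x) hρ
  obtain ⟨n, hn, hn1, -, hdense, -⟩ :=
    exists_dense_all (s := 0) hm (Or.inr rfl) (k := k) (fun j => j.elim0) (fun j => j.elim0)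
  let emb : Gens (3 + k) → Idx 3 k 0 := fun x => regr 3 k 0 (Sum.inl x)
  let back : Idx 3 k 0 → Gens (3 + k) := fun x => ((regr 3 k 0).symm x).elim id Fin.elim0
  have hbe : ∀ x, back (emb x) = x := fun x => by simp [back, emb]
  have heb : ∀ x, emb (back x) = x := fun x => by
    rcases h : (regr 3 k 0).symm x with a | j
    · simp only [back, emb, h, Sum.elim_inl, id]
      rw [← h, Equiv.apply_symm_apply]
    · exact j.elim0
  choose w hw using fun x : SG (3 + k) => PresentedGroup.mk_surjective _ x
  let Φ : (Idx 3 k 0 → SL m) → SG (3 + k) → SL m := fun y x => FreeGroup.lift (y ∘ emb) (w x)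
  have hΦ : ∀ x, (fun y => Φ y x) ∈ entGroup (PolyFun (Idx 3 k 0) m) := fun x =>
    lift_mem (entGroup (PolyFun (Idx 3 k 0) m)) (fun i y => y (emb i)) (fun i => proj_mem _) (w x)
  have hrel : ∀ y : Idx 3 k 0 → SL m, FreeGroup.lift (y ∘ emb) (surfaceRel (3 + k)) = relT y :=
    fun y => by
      rw [relT_regr, surfaceRel, map_list_prod, List.map_ofFn, rel]
      simp [Function.comp_def, map_commutatorElement, emb]
  have hhom : ∀ y : Idx 3 k 0 → SL m, relT y = 1 →
      ∃ σ : SG (3 + k) →* SL m, (fun x => σ x) = Φ y := fun y hy => by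
    let σ : SG (3 + k) →* SL m := PresentedGroup.toGroup (f := y ∘ emb) (fun u hu => by
      rw [Set.mem_singleton_iff.1 hu, hrel, hy])
    refine ⟨σ, funext fun x => ?_⟩
    conv_lhs => rw [← hw x]
    exact DFunLike.congr_fun (FreeGroup.ext_hom (σ.comp (PresentedGroup.mk _))
      (FreeGroup.lift (y ∘ emb)) fun i => by
        rw [MonoidHom.comp_apply, FreeGroup.lift_apply_of]
        exact PresentedGroup.toGroup.of _) (w x)
  let y₀ : Idx 3 k 0 → SL m := fun x => ρ (PresentedGroup.of (back x))
  have hy₀ : Φ y₀ = fun x => ρ x := funext fun x => by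
    conv_rhs => rw [← hw x]
    exact DFunLike.congr_fun (FreeGroup.ext_hom (FreeGroup.lift (y₀ ∘ emb))
      (ρ.comp (PresentedGroup.mk _)) fun i => by simp [y₀, hbe, PresentedGroup.of]) (w x)
  have hrel₀ : relT y₀ = 1 := by
    rw [← hrel]
    have h := DFunLike.congr_fun (FreeGroup.ext_hom (FreeGroup.lift (y₀ ∘ emb))
      (ρ.comp (PresentedGroup.mk _)) fun i => by simp [y₀, hbe, PresentedGroup.of])
      (surfaceRel (3 + k))
    rw [h, MonoidHom.comp_apply, PresentedGroup.one_of_mem (Set.mem_singleton _), map_one]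
  have hcr : Cr y₀ := by
    refine Irred.cr fun W hW => or_iff_not_imp_left.2 fun hne => eq_top_iff.2 fun u _ => ?_
    obtain ⟨v, hv, hv0⟩ := Submodule.exists_mem_ne_zero_of_ne_bot hne
    obtain ⟨j, hj⟩ := Function.ne_iff.1 hv0
    have hall : ∀ M ∈ Submodule.span ℂ (Set.range fun x => (ρ x).1), M *ᵥ v ∈ W := by
      intro M hM
      induction hM using Submodule.span_induction with
      | mem M hM =>
        obtain ⟨x, rfl⟩ := hM
        show (ρ x).1 *ᵥ v ∈ W
        rw [← congrFun hy₀ x]
        exact inv_words (y₀ ∘ emb) W (fun i => hW (emb i)) (w x) v hv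
      | zero => simp
      | add A B _ _ hA hB => rw [Matrix.add_mulVec]; exact W.add_mem hA hB
      | smul c A _ hA => rw [Matrix.smul_mulVec]; exact W.smul_mem c hA
    have := hall (Matrix.of fun p q => if q = j then u p / v j else 0)
      (by rw [show Submodule.span ℂ _ = ⊤ from hρ]; trivial)
    convert this using 1
    funext i
    simp only [Matrix.mulVec, dotProduct, Matrix.of_apply, ite_mul, zero_mul, Finset.sum_ite_eq',
      Finset.mem_univ, if_true]
    rw [div_mul_cancel₀ _ hj]
  have key := hdense (fun y => F (Φ y) * H (Φ y))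
    (mul_mem (polyFun_comp _ Φ hΦ hF) (polyFun_comp _ Φ hΦ hH)) (fun y hy hyP => by
      by_cases h : H (Φ y) = 0
      · rw [h, mul_zero]
      · obtain ⟨σ, hσ⟩ := hhom y hyP.1
        rw [← hσ] at h ⊢
        rw [hF0 σ (hHf _ h) (fun x => ?_), zero_mul]
        rw [congrFun hσ x]
        refine FreeGroup.range_lift_le ?_ ⟨w x, rfl⟩
        rintro _ ⟨i, rfl⟩
        have h1 := hy (emb i)
        rw [hn1 rfl] at h1
        exact mem_intGroup.2 fun p q =>
          rootRing_mono (one_dvd (2 * r.factorial)) (mem_intGroup.1 h1 p q))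
    y₀ ⟨hrel₀, fun j => j.elim0, hcr⟩
  rw [hy₀] at key
  exact (mul_eq_zero.1 key).resolve_right hH0

end Vale.Agent.P002.Prod
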