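import Vale.Agent.P002.Prod.Product
import Vale.Agent.P002.Torus

/-!
Integral points are dense among the semisimple representations of the groups with the two
properties; finite products of closed surface groups and free groups have them.
-/

open Matrix Kronecker

namespace Vale.Agent.P002.Prod

open Vale.Agent.P002.Surface Vale.Agent.P002.Global

variable {r : ℕ}

/-- Families of units which are regular on a torus together with their inverses. -/
def unitFun (n : ℕ) : Subgroup ((Fin n → ℂˣ) → ℂˣ) where
  carrier := {f | (fun z => (f z : ℂ)) ∈ RegFun n ∧ (fun z => (((f z)⁻¹ : ℂˣ) : ℂ)) ∈ RegFun n}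
  one_mem' := by
    refine ⟨?_, ?_⟩ <;> simp only [Pi.one_apply, inv_one, Units.val_one] <;>
      exact (RegFun n).one_mem
  mul_mem' := fun {f g} hf hg => by
    refine ⟨?_, ?_⟩
    · simp only [Pi.mul_apply, Units.val_mul]
      exact (RegFun n).mul_mem hf.1 hg.1
    · simp only [Pi.mul_apply, mul_inv, Units.val_mul]
      exact (RegFun n).mul_mem hf.2 hg.2
  inv_mem' := fun {f} hf => ⟨hf.2, by simpa only [Pi.inv_apply, inv_inv] using hf.1⟩

/-- Units with both values in a ring. -/
def unitsIn (R : Subring ℂ) : Subgroup ℂˣ where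
  carrier := {u | (u : ℂ) ∈ R ∧ ((u⁻¹ : ℂˣ) : ℂ) ∈ R}
  one_mem' := ⟨R.one_mem, by simp [R.one_mem]⟩
  mul_mem' := fun {a b} ha hb => ⟨R.mul_mem ha.1 hb.1, by
    rw [mul_inv, Units.val_mul]; exact R.mul_mem ha.2 hb.2⟩
  inv_mem' := fun {a} ha => ⟨ha.2, by rw [inv_inv]; exact ha.1⟩

/-- The determinant of a block diagonal matrix. -/
lemma det_blockDiag {a : ℕ} {d : Fin a → ℕ} (M : ∀ i, Matrix (Fin (d i)) (Fin (d i)) ℂ) :
    (Matrix.blockDiagonal' M).det = ∏ i, (M i).det := by
  have h : (Matrix.blockDiagonal' M).BlockTriangular Sigma.fst := fun p q hpq =>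
    Matrix.blockDiagonal'_apply_ne _ _ _ (ne_of_gt hpq)
  rw [h.det_fintype]
  refine Finset.prod_congr rfl fun i _ => ?_
  rw [← Matrix.det_submatrix_equiv_self (Equiv.sigmaSubtype i).symm]
  congr 1
  ext p q
  exact Matrix.blockDiagonal'_apply_eq M i p q

theorem dense_ss {G : Type} [Group G] (hr : 0 < r) (hG : Ok r G) (hc : Chars G) (R : Subring ℂ)
    (hR : RR r ≤ R) (u : ℂˣ) (hu : u ∈ unitsIn R) (hinj : Function.Injective fun n : ℤ => u ^ n)
    {F : (G → SL r) → ℂ} (hF : F ∈ PolyFun G r)
    (hF0 : ∀ ρ : G →* SL r, Semisimple ρ → (∀ x, ρ x ∈ intGroup R r) → F (fun x => ρ x) = 0)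
    {ρ : G →* SL r} (hρ : Semisimple ρ) : F (fun x => ρ x) = 0 := by
  classical
  obtain ⟨a, d, e, A, P, hA, heq⟩ := exists_blocks ρ hρ
  obtain ⟨N, f, x, hx, hψ⟩ := hc
  have hdr : ∀ i, d i ≤ r := fun i => by
    have := Fintype.card_le_of_injective (fun p : Fin (d i) => e ⟨i, p⟩) fun p q h => by
      simpa using e.injective h
    simpa using this
  let i0 : Fin a := (e.symm ⟨0, hr⟩).1
  choose χ hχ using fun i =>
    Chars.exists_root ⟨N, f, x, hx, hψ⟩ (detChar (A i)) (hA i).1
  have hdet : ∀ g, ∏ i, χ i g ^ d i = 1 := fun g => by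
    refine Units.ext ?_
    have h := (ρ g).2
    rw [heq, Matrix.det_mul, Matrix.det_mul, P.2, (P⁻¹).2, one_mul, mul_one,
      Matrix.det_reindex_self, det_blockDiag] at h
    rw [Units.coe_prod, Units.val_one, ← h]
    exact Finset.prod_congr rfl fun i _ => by rw [hχ, detChar_apply]
  choose τ hτ using fun (i : Fin a) (k : Fin N) =>
    IsAlgClosed.exists_pow_nat_eq (χ i (x k) : ℂ) (hA i0).1
  have hτ0 : ∀ i k, τ i k ≠ 0 := fun i k h => by
    have := hτ i k
    rw [h, zero_pow (hA i0).1.ne'] at this
    exact (χ i (x k)).ne_zero this.symm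
  let T : Fin (a * N) → ℂˣ := fun m =>
    Units.mk0 _ (hτ0 (finProdFinEquiv.symm m).1 (finProdFinEquiv.symm m).2)
  have hT : ∀ i k, T (finProdFinEquiv (i, k)) ^ d i0 = χ i (x k) := fun i k =>
    Units.ext (by simp only [T, Equiv.symm_apply_apply, Units.val_pow_eq_pow_val, Units.val_mk0, hτ])
  let rest : Finset (Fin a) := Finset.univ.erase i0
  let ω : Fin N → ℂˣ := fun k =>
    χ i0 (x k) * ∏ i ∈ rest, T (finProdFinEquiv (i, k)) ^ d i
  have hω : ∀ k, ω k ^ d i0 = 1 := fun k => by
    rw [mul_pow, ← Finset.prod_pow, ← hdet (x k),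
      ← Finset.mul_prod_erase _ _ (Finset.mem_univ i0)]
    congr 1
    exact Finset.prod_congr rfl fun i _ => by
      rw [← hT i k, ← pow_mul, ← pow_mul, Nat.mul_comm (d i) (d i0)]
  -- the characters at a point of the torus
  let β : (Fin (a * N) → ℂˣ) → Fin a → Fin N → ℂˣ := fun z i k =>
    if i = i0 then ω k * (∏ l ∈ rest, z (finProdFinEquiv (l, k)) ^ d l)⁻¹
    else z (finProdFinEquiv (i, k)) ^ d i0
  let κ : (Fin (a * N) → ℂˣ) → Fin a → G →* ℂˣ := fun z i =>
    MonoidHom.mk' (fun g => ∏ k, β z i k ^ (f g).toAdd k) fun g g' => by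
      simp [_root_.zpow_add, Finset.prod_mul_distrib]
  have hκdet : ∀ z g, ∏ i, κ z i g ^ d i = 1 := fun z g => by
    show ∏ i, (∏ k, β z i k ^ (f g).toAdd k) ^ d i = 1
    simp only [← Finset.prod_pow]
    rw [Finset.prod_comm]
    refine Finset.prod_eq_one fun k _ => ?_
    have e1 : ∀ i, (β z i k ^ (f g).toAdd k) ^ d i = (β z i k ^ d i) ^ (f g).toAdd k := fun i => by
      rw [← zpow_natCast, ← zpow_natCast (β z i k), ← _root_.zpow_mul, ← _root_.zpow_mul, mul_comm]
    simp only [e1]
    rw [Finset.prod_zpow]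
    have e2 : ∏ i, β z i k ^ d i = 1 := by
      rw [← Finset.mul_prod_erase _ _ (Finset.mem_univ i0)]
      simp only [β, if_pos]
      rw [mul_pow, hω, one_mul, inv_pow, ← Finset.prod_pow, inv_mul_eq_one]
      refine Finset.prod_congr rfl fun i hi => ?_
      rw [if_neg (Finset.ne_of_mem_erase hi), ← pow_mul, ← pow_mul, Nat.mul_comm (d i) (d i0)]
    rw [e2, _root_.one_zpow]
  have hκT : ∀ i, κ T i = χ i := fun i => by
    refine MonoidHom.ext fun g => ?_
    show ∏ k, β T i k ^ (f g).toAdd k = _
    rw [hψ (χ i) g]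
    refine Finset.prod_congr rfl fun k _ => ?_
    congr 1
    simp only [β]
    split_ifs with hi
    · subst hi
      simp only [ω]
      rw [mul_inv_cancel_right]
    · exact hT i k
  let K : (Fin (a * N) → ℂˣ) → (∀ i, G → SL (d i)) → G → Mat r := fun z B g =>
    Matrix.reindex e e (Matrix.blockDiagonal' fun i => (κ z i g : ℂ) • (B i g).1)
  have hK : ∀ z B g, (K z B g).det = 1 := fun z B g => by
    rw [Matrix.det_reindex_self, det_blockDiag]
    calc ∏ i, ((κ z i g : ℂ) • (B i g).1).det = ∏ i, (κ z i g : ℂ) ^ d i :=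
          Finset.prod_congr rfl fun i _ => by
            rw [Matrix.det_smul, (B i g).2, mul_one, Fintype.card_fin]
      _ = 1 := by simpa using congrArg (fun v : ℂˣ => (v : ℂ)) (hκdet z g)
  let Φ : (Fin (a * N) → ℂˣ) → (∀ i, G → SL (d i)) → SL r → G → SL r := fun z B Q g =>
    Q * ⟨K z B g, hK z B g⟩ * Q⁻¹
  have hmat : ∀ {E : Type} (S : Subalgebra ℂ (E → ℂ)) (z : E → Fin (a * N) → ℂˣ)
      (B : E → ∀ i, G → SL (d i)) (g : G), (∀ i, (fun v => (κ (z v) i g : ℂ)) ∈ S) →
      (∀ i, (fun v => B v i g) ∈ entGroup S) → ∀ Q : SL r,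
      (fun v => Φ (z v) (B v) Q g) ∈ entGroup S := by
    intro E S z B g hz hB Q
    refine (entGroup _).mul_mem ((entGroup _).mul_mem (const_mem _ _) ?_) (const_mem _ _)
    intro p q
    show (fun v => K (z v) (B v) g p q) ∈ S
    simp only [K, Matrix.reindex_apply, Matrix.submatrix_apply]
    rcases e.symm p with ⟨i, p'⟩
    rcases e.symm q with ⟨j, q'⟩
    by_cases hij : i = j
    · subst hij
      simp only [Matrix.blockDiagonal'_apply_eq, Matrix.smul_apply, smul_eq_mul]
      exact S.mul_mem (hz i) (hB i p' q')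
    · simp only [Matrix.blockDiagonal'_apply_ne _ _ _ hij]
      exact S.algebraMap_mem 0
  -- integral torus points, integral blocks, any conjugator
  have step1 : ∀ (B : ∀ i, G →* SL (d i)), (∀ i, Full fun g => (B i g).1) →
      (∀ i g, B i g ∈ intGroup R (d i)) → ∀ (m : Fin (a * N) → ℤ) Q,
      F (Φ (fun l => u ^ m l) (fun i => B i) Q) = 0 := by
    intro B hB hBi m Q
    set z : Fin (a * N) → ℂˣ := fun l => u ^ m l
    refine vanish_int (X := Unit) R (F := fun Q => F (Φ z (fun i => B i) (Q ()))) ?_
      (fun Q hQ => ?_) fun _ => Q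
    · exact polyFun_comp _ (fun Q : Unit → SL r => Φ z (fun i => B i) (Q ())) (fun g =>
        (entGroup _).mul_mem ((entGroup _).mul_mem (proj_mem _) (const_mem _ _))
          ((entGroup _).inv_mem (proj_mem _))) hF
    · have hmul : ∀ g g', K z (fun i => B i) (g * g') =
          K z (fun i => B i) g * K z (fun i => B i) g' := fun g g' => by
        simp only [K, Matrix.reindex_apply, Matrix.submatrix_mul_equiv, ← Matrix.blockDiagonal'_mul,
          map_mul, val_mul, Units.val_mul, Matrix.smul_mul, Matrix.mul_smul, smul_smul]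
        congr 1
        congr 1
        funext i
        rw [mul_comm (κ z i g : ℂ)]
      let KS : G → SL r := fun g => ⟨K z (fun i => B i) g, hK _ _ g⟩
      let σ : G →* SL r := MonoidHom.mk' (Φ z (fun i => B i) (Q ())) fun g g' => by
        show Q () * KS (g * g') * (Q ())⁻¹ = Q () * KS g * (Q ())⁻¹ * (Q () * KS g' * (Q ())⁻¹)
        rw [show KS (g * g') = KS g * KS g' from Subtype.ext (hmul g g')]
        group
      refine hF0 σ (semisimple_of_blocks e (fun i g => (κ z i g : ℂ) • (B i g).1)
        (fun i => full_smul (hB i) _ fun g => Units.ne_zero _) (Q ()) σ fun g => rfl) fun g => ?_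
      have hκi : ∀ i, (κ z i g : ℂ) ∈ R := fun i => by
        refine (show (∏ k, β z i k ^ (f g).toAdd k) ∈ unitsIn R from prod_mem fun k _ => zpow_mem ?_ _).1
        have hwk : ω k ∈ unitsIn R :=
          ⟨hR (root_mem_RR (hA i0).1 (hdr i0) (by rw [← Units.val_pow_eq_pow_val, hω, Units.val_one])),
            hR (root_mem_RR (hA i0).1 (hdr i0)
              (by rw [← Units.val_pow_eq_pow_val, inv_pow, hω, inv_one, Units.val_one]))⟩
        simp only [β, z]
        split_ifs
        · exact mul_mem hwk (inv_mem (prod_mem fun l _ => pow_mem (zpow_mem hu _) _))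
        · exact pow_mem (zpow_mem hu _) _
      refine mul_mem (mul_mem (hQ ()) (mem_intGroup.2 fun p q => ?_)) (inv_mem (hQ ()))
      show K z (fun i => B i) g p q ∈ R
      simp only [K, Matrix.reindex_apply, Matrix.submatrix_apply]
      rcases e.symm p with ⟨i, p'⟩
      rcases e.symm q with ⟨j, q'⟩
      by_cases hij : i = j
      · subst hij
        simp only [Matrix.blockDiagonal'_apply_eq, Matrix.smul_apply, smul_eq_mul]
        exact R.mul_mem (hκi i) (mem_intGroup.1 (hBi i g) p' q')
      · simp only [Matrix.blockDiagonal'_apply_ne _ _ _ hij]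
        exact R.zero_mem
  have step2 : ∀ (B : ∀ i, G →* SL (d i)), (∀ i, Full fun g => (B i g).1) →
      (∀ i g, B i g ∈ intGroup R (d i)) → ∀ z Q, F (Φ z (fun i => B i) Q) = 0 := by
    intro B hB hBi z Q
    have hreg : (fun z => F (Φ z (fun i => B i) Q)) ∈ RegFun (a * N) :=
      polyFun_comp _ (fun z => Φ z (fun i => B i) Q) (fun g => hmat _ (fun z => z) _ g (fun i => by
        have hzc : ∀ l, (fun z : Fin (a * N) → ℂˣ => z l) ∈ unitFun (a * N) := fun l =>
          ⟨Algebra.subset_adjoin (Or.inl ⟨l, rfl⟩), Algebra.subset_adjoin (Or.inr ⟨l, rfl⟩)⟩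
        have hb : ∀ k, (fun z => β z i k) ∈ unitFun (a * N) := fun k => by
          simp only [β]
          split_ifs
          · have e3 : (fun z : Fin (a * N) → ℂˣ =>
                ω k * (∏ l ∈ rest, z (finProdFinEquiv (l, k)) ^ d l)⁻¹) = (fun _ => ω k) *
                (∏ l ∈ rest, (fun z => z (finProdFinEquiv (l, k))) ^ d l)⁻¹ := by
              funext z; simp [Finset.prod_apply]
            rw [e3]
            exact mul_mem ⟨(RegFun _).algebraMap_mem _, (RegFun _).algebraMap_mem _⟩
              (inv_mem (prod_mem fun l _ => pow_mem (hzc _) _))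
          · exact pow_mem (hzc _) _
        have e4 : (fun z => κ z i g) = ∏ k, (fun z => β z i k) ^ (f g).toAdd k := by
          funext z; simp [κ, Finset.prod_apply]
        have h := (prod_mem fun k _ => zpow_mem (hb k) _ :
          (∏ k, (fun z => β z i k) ^ (f g).toAdd k) ∈ unitFun (a * N))
        rw [← e4] at h
        exact h.1) (fun i => const_mem _ _) Q) hF
    exact congrFun (regFun_eq_zero hreg u hinj fun m => step1 B hB hBi m Q) z
  have step3 : ∀ (S : Finset (Fin a)) (B : ∀ i, G →* SL (d i)), (∀ i, Full fun g => (B i g).1) →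
      (∀ i, i ∉ S → ∀ g, B i g ∈ intGroup R (d i)) → ∀ z Q, F (Φ z (fun i => B i) Q) = 0 := by
    intro S
    induction S using Finset.induction with
    | empty => exact fun B hB hBi => step2 B hB fun i => hBi i (by simp)
    | insert c S hc ih =>
      intro B hB hBi z Q
      let W : (G → SL (d c)) → ∀ i, G → SL (d i) := fun b => Function.update (fun i => B i) c b
      have key := hG (d c) (hA c).1 (hdr c) (fun b => F (Φ z (W b) Q))
        (polyFun_comp _ (fun b : G → SL (d c) => Φ z (W b) Q)
          (fun g => hmat _ (fun _ => z) W g (fun i => Subalgebra.algebraMap_mem _ _) (fun i => by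
            by_cases hic : i = c
            · subst hic; simp only [W, Function.update_self]; exact proj_mem g
            · simp only [W, Function.update_of_ne hic]; exact const_mem _ _) Q) hF)
        (fun b hb hbi => by
          have := ih (Function.update B c b) (fun i => by
              by_cases hic : i = c
              · subst hic; rw [Function.update_self]; exact hb
              · rw [Function.update_of_ne hic]; exact hB i) (fun i hi g => by
              by_cases hic : i = c
              · subst hic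
                rw [Function.update_self]
                exact mem_intGroup.2 fun p q => hR (mem_intGroup.1 (hbi g) p q)
              · rw [Function.update_of_ne hic]
                exact hBi i (by simp [hic, hi]) g) z Q
          have eW : W (fun g => b g) = fun i => ⇑(Function.update B c b i) := funext fun i => by
            by_cases hic : i = c
            · subst hic; simp [W]
            · simp [W, hic]
          show F (Φ z (W _) Q) = 0
          rw [eW]
          exact this) (B c) (hB c)
      have eW : W (fun g => B c g) = fun i => ⇑(B i) := Function.update_eq_self c _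
      rwa [eW] at key
  have hfull : ∀ i, Full fun g => (normal (A i) (χ i) (hχ i) g).1 := fun i =>
    full_smul (hA i).2 _ fun g => Units.ne_zero _
  have key := step3 Finset.univ (fun i => normal (A i) (χ i) (hχ i)) hfull
    (fun i hi => absurd (Finset.mem_univ i) hi) T P
  rw [← key]
  congr 1
  funext g
  refine Subtype.ext ?_
  show _ = P.1 * K T _ g * (P⁻¹).1
  simp only [K, hκT, ← normal_spec]
  exact heq g

/-- Splitting off the first factor of a finite product. -/
def consIso {n : ℕ} (G : Fin (n + 1) → Type) [∀ i, Group (G i)] :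
    G 0 × (∀ i : Fin n, G i.succ) ≃* ∀ i, G i where
  toFun p := Fin.cons p.1 p.2
  invFun f := (f 0, fun i => f i.succ)
  left_inv p := by simp
  right_inv f := Fin.cons_self_tail f
  map_mul' p q := by
    funext i
    induction i using Fin.cases <;> simp

/-- The group of a product of closed surfaces and affine curves. -/
abbrev PG {a b : ℕ} (g : Fin a → ℕ) (n : Fin b → ℕ) : Type :=
  (∀ i, SG (g i)) × ∀ j, FreeGroup (Fin (n j))

theorem props_pi (r : ℕ) : ∀ (n : ℕ) (G : Fin n → Type) [∀ i, Group (G i)],
    (∀ i, Ok r (G i) ∧ Chars (G i)) → Ok r (∀ i, G i) ∧ Chars (∀ i, G i)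
  | 0, G, _, _ => by
    have e : FreeGroup (Fin 0) ≃* ∀ i, G i :=
      { toFun := fun _ i => i.elim0
        invFun := fun _ => 1
        left_inv := fun x => (Subsingleton.elim _ _)
        right_inv := fun f => funext fun i => i.elim0
        map_mul' := fun _ _ => funext fun i => i.elim0 }
    exact ⟨ok_congr e (ok_free r 0), chars_congr e (chars_free 0)⟩
  | n + 1, G, inst, h => by
    obtain ⟨h1, h2⟩ := props_pi r n (fun i => G i.succ) fun i => h i.succ
    exact ⟨ok_congr (consIso G) (ok_prod (h 0).2 h2 (h 0).1 h1),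
      chars_congr (consIso G) (chars_prod (h 0).2 h2)⟩

theorem props_PG (r : ℕ) {a b : ℕ} (g : Fin a → ℕ) (hg : ∀ i, 3 ≤ g i) (n : Fin b → ℕ) :
    Ok r (PG g n) ∧ Chars (PG g n) := by
  obtain ⟨h1, h2⟩ := props_pi r a (fun i => SG (g i)) fun i =>
    ⟨ok_surface r (hg i), chars_surface (g i)⟩
  obtain ⟨h3, h4⟩ := props_pi r b (fun j => FreeGroup (Fin (n j))) fun j =>
    ⟨ok_free r (n j), chars_free (n j)⟩
  exact ⟨ok_prod h2 h4 h1 h3, chars_prod h2 h4⟩

end Vale.Agent.P002.Prod
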