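import Vale.Agent.P002.Prod.Factor

/-!
The two properties pass to products and along isomorphisms.
-/

open Matrix Kronecker

namespace Vale.Agent.P002.Prod

open Vale.Agent.P002.Surface Vale.Agent.P002.Global

variable {r : ℕ} {G H : Type} [Group G] [Group H]

lemma full_comp_surjective {ι X Y : Type} {A : X → Matrix ι ι ℂ} (f : Y → X)
    (hf : Function.Surjective f) : Full (fun y => A (f y)) ↔ Full A := by
  show Submodule.span ℂ (Set.range (A ∘ f)) = ⊤ ↔ _
  rw [hf.range_comp]
  rfl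

lemma ok_congr (e : G ≃* H) (h : Ok r G) : Ok r H := by
  intro m hm0 hmr F hF hF0 ρ hρ
  let Φ : (G → SL m) → H → SL m := fun y x => y (e.symm x)
  have key := h m hm0 hmr (fun y => F (Φ y)) (polyFun_comp _ Φ (fun x => proj_mem _) hF)
    (fun σ hσ hσi => by
      refine hF0 (σ.comp e.symm.toMonoidHom) ?_ fun x => hσi _
      exact (full_comp_surjective (A := fun x => (σ x).1) e.symm e.symm.surjective).2 hσ)
    (ρ.comp e.toMonoidHom)
    ((full_comp_surjective (A := fun x => (ρ x).1) e e.surjective).2 hρ)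
  simpa [Φ] using key

lemma chars_congr (e : G ≃* H) (h : Chars G) : Chars H := by
  obtain ⟨N, f, x, hx, hψ⟩ := h
  refine ⟨N, f.comp e.symm.toMonoidHom, fun k => e (x k), fun k => by simpa using hx k,
    fun ψ g => ?_⟩
  have := hψ (ψ.comp e.toMonoidHom) (e.symm g)
  simpa using this

lemma chars_prod (hG : Chars G) (hH : Chars H) : Chars (G × H) := by
  obtain ⟨N, f, x, hx, hψ⟩ := hG
  obtain ⟨M, f', x', hx', hψ'⟩ := hH
  let e : G × H →* Multiplicative (Fin (N + M) → ℤ) := MonoidHom.mk'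
    (fun g => Multiplicative.ofAdd (Fin.append (f g.1).toAdd (f' g.2).toAdd)) fun a b => by
      refine Multiplicative.toAdd.injective (funext fun k => ?_)
      induction k using Fin.addCases <;> simp
  refine ⟨N + M, e, Fin.append (fun k => (x k, 1)) (fun k => (1, x' k)), fun k => ?_,
    fun ψ g => ?_⟩
  · induction k using Fin.addCases with
    | left i =>
      show Fin.append _ _ = _
      funext l
      induction l using Fin.addCases <;> simp [hx, Pi.single_apply]
      simp [Fin.ext_iff]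
      omega
    | right i =>
      show Fin.append _ _ = _
      funext l
      induction l using Fin.addCases <;> simp [hx', Pi.single_apply]
      simp [Fin.ext_iff]
      omega
  · have h1 := hψ (ψ.comp (MonoidHom.inl G H)) g.1
    have h2 := hψ' (ψ.comp (MonoidHom.inr G H)) g.2
    rw [show g = (g.1, 1) * (1, g.2) by simp, map_mul]
    show ψ (MonoidHom.inl G H g.1) * ψ (MonoidHom.inr G H g.2) = _
    rw [← MonoidHom.comp_apply, ← MonoidHom.comp_apply, h1, h2, Fin.prod_univ_add]
    simp [e]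

/-- A character with prescribed values at the dual elements. -/
lemma Chars.exists_root (hG : Chars G) (ψ : G →* ℂˣ) {d : ℕ} (hd : 0 < d) :
    ∃ χ : G →* ℂˣ, ∀ g, χ g ^ d = ψ g := by
  obtain ⟨N, e, x, -, hψ⟩ := hG
  choose t ht using fun k => IsAlgClosed.exists_pow_nat_eq (ψ (x k) : ℂ) hd
  have ht0 : ∀ k, t k ≠ 0 := fun k h => by
    have := ht k
    rw [h, zero_pow hd.ne'] at this
    exact (ψ (x k)).ne_zero this.symm
  refine ⟨MonoidHom.mk' (fun g => ∏ k, Units.mk0 (t k) (ht0 k) ^ (e g).toAdd k) fun a b => by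
    simp [_root_.zpow_add, Finset.prod_mul_distrib], fun g => ?_⟩
  show (∏ k, Units.mk0 (t k) (ht0 k) ^ (e g).toAdd k) ^ d = _
  rw [hψ ψ g, ← Finset.prod_pow]
  refine Finset.prod_congr rfl fun k _ => ?_
  rw [← zpow_natCast, ← _root_.zpow_mul, mul_comm, _root_.zpow_mul, zpow_natCast]
  congr 1
  exact Units.ext (by rw [Units.val_pow_eq_pow_val, Units.val_mk0, ht])

lemma root_mem_RR {m : ℕ} (hm0 : 0 < m) (hmr : m ≤ r) {z : ℂ} (h : z ^ m = 1) : z ∈ RR r :=
  rootRing_mono ((Nat.dvd_factorial hm0 hmr).trans (Dvd.intro_left _ rfl)) (root_mem h)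

lemma full_smul {X ι : Type} {A : X → Matrix ι ι ℂ} (h : Full A) (c : X → ℂ)
    (hc : ∀ x, c x ≠ 0) : Full fun x => c x • A x := by
  refine eq_top_iff.2 ((h.ge).trans (Submodule.span_le.2 ?_))
  rintro _ ⟨x, rfl⟩
  have : A x = (c x)⁻¹ • (c x • A x) := by rw [smul_smul, inv_mul_cancel₀ (hc x), one_smul]
  rw [this]
  exact Submodule.smul_mem _ _ (Submodule.subset_span ⟨x, rfl⟩)

/-- The determinant as a character. -/
noncomputable def detChar {p : ℕ} (A : G →* Matrix (Fin p) (Fin p) ℂ) : G →* ℂˣ :=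
  ((Matrix.detMonoidHom).comp A).toHomUnits

lemma detChar_apply {p : ℕ} (A : G →* Matrix (Fin p) (Fin p) ℂ) (x : G) :
    (detChar A x : ℂ) = (A x).det := rfl

/-- A representation normalised by a root of its determinant. -/
noncomputable def normal {p : ℕ} (A : G →* Matrix (Fin p) (Fin p) ℂ) (χ : G →* ℂˣ)
    (h : ∀ g, χ g ^ p = detChar A g) : G →* SL p :=
  MonoidHom.mk' (fun g => ⟨((χ g)⁻¹ : ℂˣ).1 • A g, by
      rw [Matrix.det_smul, Fintype.card_fin, ← detChar_apply, ← h, Units.val_pow_eq_pow_val,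
        ← mul_pow, Units.inv_mul, one_pow]⟩) fun a b => by
    refine Subtype.ext ?_
    show ((χ (a * b))⁻¹ : ℂˣ).1 • A (a * b) = (((χ a)⁻¹ : ℂˣ).1 • A a) * (((χ b)⁻¹ : ℂˣ).1 • A b)
    rw [map_mul, map_mul, mul_inv, Units.val_mul, Matrix.smul_mul, Matrix.mul_smul, smul_smul]

lemma normal_spec {p : ℕ} (A : G →* Matrix (Fin p) (Fin p) ℂ) (χ : G →* ℂˣ)
    (h : ∀ g, χ g ^ p = detChar A g) (g : G) : A g = (χ g : ℂ) • (normal A χ h g).1 := by
  show _ = (χ g : ℂ) • (((χ g)⁻¹ : ℂˣ).1 • A g)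
  rw [smul_smul, Units.mul_inv, one_smul]

theorem ok_prod (hcG : Chars G) (hcH : Chars H) (hG : Ok r G) (hH : Ok r H) : Ok r (G × H) := by
  intro m hm0 hmr F hF hF0 ρ hρ
  obtain ⟨p, q, e, A, B, P, hA, hB, heq⟩ := exists_tensor hm0 ρ hρ
  have hpq : p * q = m := by
    have := Fintype.card_congr e
    simpa using this
  have hp : 0 < p := Nat.pos_of_ne_zero fun h => by rw [h, zero_mul] at hpq; omega
  have hq : 0 < q := Nat.pos_of_ne_zero fun h => by rw [h, mul_zero] at hpq; omega
  have hdet : ∀ x y, (A x).det ^ q * (B y).det ^ p = 1 := fun x y => by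
    have h := (ρ (x, y)).2
    rw [heq, Matrix.det_mul, Matrix.det_mul, P.2, (P⁻¹).2, one_mul, mul_one,
      Matrix.det_reindex_self, Matrix.det_kronecker, Fintype.card_fin, Fintype.card_fin] at h
    exact h
  obtain ⟨χ, hχ⟩ := hcG.exists_root (detChar A) hp
  obtain ⟨ψ, hψ⟩ := hcH.exists_root (detChar B) hq
  have hχm : ∀ x, (χ x : ℂ) ^ m = 1 := fun x => by
    rw [← hpq, pow_mul, ← Units.val_pow_eq_pow_val, hχ, detChar_apply]
    simpa using hdet x 1
  have hψm : ∀ y, (ψ y : ℂ) ^ m = 1 := fun y => by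
    rw [← hpq, mul_comm p, pow_mul, ← Units.val_pow_eq_pow_val, hψ, detChar_apply]
    simpa using hdet 1 y
  let K : SL p → SL q → G × H → Matrix (Fin m) (Fin m) ℂ := fun a b z =>
    Matrix.reindex e e (((χ z.1 : ℂ) • a.1) ⊗ₖ ((ψ z.2 : ℂ) • b.1))
  have hK : ∀ a b z, (K a b z).det = 1 := fun a b z => by
    rw [Matrix.det_reindex_self, Matrix.det_kronecker, Matrix.det_smul, Matrix.det_smul, a.2, b.2,
      mul_one, mul_one, Fintype.card_fin, Fintype.card_fin, ← pow_mul, ← pow_mul, hpq,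
      mul_comm q, hpq, hχm, hψm, one_mul]
  let KS : SL p → SL q → G × H → SL m := fun a b z => ⟨K a b z, hK a b z⟩
  let Φ : (G → SL p) → (H → SL q) → SL m → G × H → SL m := fun a b Q z =>
    Q * KS (a z.1) (b z.2) z * Q⁻¹
  have hmat : ∀ {E : Type} (S : Subalgebra ℂ (E → ℂ)) {a : E → SL p} {b : E → SL q}
      (z : G × H), a ∈ entGroup S → b ∈ entGroup S →
      (fun u => KS (a u) (b u) z) ∈ entGroup S := by
    intro E S a b z ha hb i j
    exact S.mul_mem (S.mul_mem (S.algebraMap_mem (χ z.1 : ℂ)) (ha (e.symm i).1 (e.symm j).1))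
      (S.mul_mem (S.algebraMap_mem (ψ z.2 : ℂ)) (hb (e.symm i).2 (e.symm j).2))
  -- integral parameters and any conjugator
  have step1 : ∀ (a : G →* SL p) (b : H →* SL q), Full (fun x => (a x).1) →
      Full (fun y => (b y).1) → (∀ x, a x ∈ intGroup (RR r) p) →
      (∀ y, b y ∈ intGroup (RR r) q) → ∀ Q, F (Φ a b Q) = 0 := by
    intro a b ha hb hai hbi Q
    refine vanish_int (X := Unit) (RR r) (F := fun Q => F (Φ a b (Q ()))) ?_ (fun Q hQ => ?_)
      fun _ => Q
    · exact polyFun_comp _ (fun Q : Unit → SL m => Φ a b (Q ())) (fun z => (entGroup _).mul_mem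
        ((entGroup _).mul_mem (proj_mem _) (const_mem _ _)) ((entGroup _).inv_mem (proj_mem _))) hF
    · let σ : G × H →* SL m := MonoidHom.mk' (Φ a b (Q ())) fun u v => by
        have hz : KS (a (u * v).1) (b (u * v).2) (u * v) =
            KS (a u.1) (b u.2) u * KS (a v.1) (b v.2) v := Subtype.ext (by
          show K _ _ _ = K _ _ _ * K _ _ _
          simp only [K, Prod.fst_mul, Prod.snd_mul, map_mul, Matrix.reindex_apply,
            Matrix.submatrix_mul_equiv, ← Matrix.mul_kronecker_mul, val_mul, Units.val_mul,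
            Matrix.smul_mul, Matrix.mul_smul, smul_smul]
          rw [mul_comm (χ u.1 : ℂ), mul_comm (ψ u.2 : ℂ)])
        show Q () * _ * (Q ())⁻¹ = Q () * _ * (Q ())⁻¹ * (Q () * _ * (Q ())⁻¹)
        rw [hz]
        group
      refine hF0 σ ?_ fun z => ?_
      · have h := full_conj (full_kron (full_smul ha (fun x => (χ x : ℂ)) fun x => (χ x).ne_zero)
          (full_smul hb (fun y => (ψ y : ℂ)) fun y => (ψ y).ne_zero) e) (Q ())
        exact h
      · refine mul_mem (mul_mem (hQ ()) (mem_intGroup.2 fun i j => ?_)) (inv_mem (hQ ()))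
        exact (RR r).mul_mem
          ((RR r).mul_mem (root_mem_RR hm0 hmr (hχm _)) (mem_intGroup.1 (hai _) _ _))
          ((RR r).mul_mem (root_mem_RR hm0 hmr (hψm _)) (mem_intGroup.1 (hbi _) _ _))
  have step2 : ∀ (a : G →* SL p) (b : H →* SL q), Full (fun x => (a x).1) →
      Full (fun y => (b y).1) → (∀ y, b y ∈ intGroup (RR r) q) → ∀ Q, F (Φ a b Q) = 0 :=
    fun a b ha hb hbi Q => hG p hp (by nlinarith) (fun a => F (Φ a b Q))
      (polyFun_comp _ (fun a : G → SL p => Φ a b Q) (fun z => (entGroup _).mul_mem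
        ((entGroup _).mul_mem (const_mem _ _) (hmat _ z (proj_mem _) (const_mem _ _)))
        (const_mem _ _)) hF)
      (fun a' ha' hai => step1 a' b ha' hb hai hbi Q) a ha
  have hn : ∀ {K' : Type} [Group K'] {d : ℕ} (T : K' →* Matrix (Fin d) (Fin d) ℂ) (c : K' →* ℂˣ)
      (h : ∀ g, c g ^ d = detChar T g), Full T → Full fun x => (normal T c h x).1 :=
    fun T c h hT => full_smul hT (fun g => ((c g)⁻¹ : ℂˣ).1) fun g => Units.ne_zero _
  have key := hH q hq (by nlinarith) (fun b => F (Φ (normal A χ hχ) b P))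
    (polyFun_comp _ (fun b : H → SL q => Φ (normal A χ hχ) b P) (fun z => (entGroup _).mul_mem
      ((entGroup _).mul_mem (const_mem _ _) (hmat _ z (const_mem _ _) (proj_mem _)))
      (const_mem _ _)) hF)
    (fun b hb hbi => step2 _ b (hn A χ hχ hA) hb hbi P) (normal B ψ hψ) (hn B ψ hψ hB)
  rw [← key]
  congr 1
  funext z
  refine Subtype.ext ?_
  show _ = P.1 * K (normal A χ hχ z.1) (normal B ψ hψ z.2) z * (P⁻¹).1
  simp only [K]
  rw [← normal_spec, ← normal_spec]
  exact heq z.1 z.2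

end Vale.Agent.P002.Prod
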