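import Vale.Agent.P002.Defs

/-!
Density of integral points in the character variety without boundary conditions.
-/

open Matrix

namespace Vale.Agent.P002.Prod

/-- All entries of all values lie in `L` and are algebraic integers. -/
def IntEntries {Γ : Type} [Group Γ] {r : ℕ} (L : IntermediateField ℚ ℂ)
    (ρ : Γ →* SpecialLinearGroup (Fin r) ℂ) : Prop :=
  ∀ x i j, (ρ x).1 i j ∈ L ∧ IsIntegral ℤ ((ρ x).1 i j)

/-- Representations with entries in the integers of `L` are integral points, and a polynomial in
the entries vanishing on the semisimple ones among them vanishes on all semisimple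
representations. -/
def IntegralDense (L : IntermediateField ℚ ℂ) (r : ℕ) (Γ : Type) [Group Γ] : Prop :=
  (∀ ρ : Γ →* SpecialLinearGroup (Fin r) ℂ, IntEntries L ρ → IntegralPoint L ρ) ∧
    ∀ F : MvPolynomial (Γ × Fin r × Fin r) ℂ,
      (∀ ρ : Γ →* SpecialLinearGroup (Fin r) ℂ, Semisimple ρ → IntEntries L ρ →
        MvPolynomial.aeval (coord ρ) F = 0) →
      ∀ ρ : Γ →* SpecialLinearGroup (Fin r) ℂ, Semisimple ρ → MvPolynomial.aeval (coord ρ) F = 0

end Vale.Agent.P002.Prod
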